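import Vale.Agent.P280.H11.TopA
import Vale.Agent.P280.H231.Eng

/-! P280, Lemma M for top weights: for a maximal torus with isolated fixed points the weights at
which a one-parameter group with isolated fixed points attains its maximum have multiplicity one. -/

open DirectSum Vale.Agent.P280.T Vale.Agent.P280.H127 Vale.Agent.P280.N

namespace Vale.Agent.P280.H11

open Vale.Agent.P280.H746

variable {r : ℕ} {R : Type} [CommRing R] [IsDomain R] [Algebra ℂ R]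
  {𝒜 : ℕ × (Fin r → ℤ) → Submodule ℂ R} [GradedAlgebra 𝒜]

/-- weight zero fields -/
def Wz (𝒜 : ℕ × (Fin r → ℤ) → Submodule ℂ R) (D : Derivation ℂ R R) : Prop :=
  ∀ d m, ∀ h ∈ 𝒜 (d, m), D h ∈ 𝒜 (d, m)

/-- diagonal up to a nilpotent part -/
def Tr (𝒜 : ℕ × (Fin r → ℤ) → Submodule ℂ R) (D : Derivation ℂ R R) (α : ℂ)
    (β : (Fin r → ℤ) →+ ℂ) : Prop :=
  ∀ d m, ∀ h ∈ 𝒜 (d, m), ∃ n : ℕ, (fun x : R => D x - ((d : ℂ) * α + β m) • x)^[n] h = 0

/-- The eigenvalue of a weight zero field on the fields of weight `a`. -/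
theorem eig_val {a : Fin r → ℤ} {E D : Derivation ℂ R R} (hE : H93.IsHField 𝒜 a E) (hE0 : E ≠ 0)
    (hD : Wz 𝒜 D) {α : ℂ} {β : (Fin r → ℤ) →+ ℂ} (hT : Tr 𝒜 D α β) {κ : ℂ}
    (hκ : ∀ h, ⁅D, E⁆ h = κ • E h) : κ = -β a := by
  set Z : R →ₗ[ℂ] R := (D : R →ₗ[ℂ] R) - H224.hsOp 𝒜 α β with hZ
  have hZv : ∀ h, Z h = D h - H224.hsOp 𝒜 α β h := fun h => rfl
  have hZm : ∀ (d : ℕ) (m : Fin r → ℤ), ∀ h ∈ 𝒜 (d, m), Z h ∈ 𝒜 (d, m) := by
    intro d m h hh
    rw [hZv, H224.hsOp_mem hh]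
    exact Submodule.sub_mem _ (hD d m h hh) (Submodule.smul_mem _ _ hh)
  have hZpm : ∀ (d : ℕ) (m : Fin r → ℤ), ∀ h ∈ 𝒜 (d, m), ∀ n : ℕ, (Z ^ n) h ∈ 𝒜 (d, m) := by
    intro d m h hh n
    induction n with
    | zero => exact hh
    | succ n ih =>
      rw [pow_succ', Module.End.mul_apply]
      exact hZm _ _ _ ih
  have hnil : ∀ (d : ℕ) (m : Fin r → ℤ), ∀ h ∈ 𝒜 (d, m), ∃ n : ℕ, (Z ^ n) h = 0 := by
    intro d m h hh
    obtain ⟨n, hn⟩ := hT d m h hh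
    refine ⟨n, ?_⟩
    have h1 : ∀ n : ℕ, (fun x : R => D x - ((d : ℂ) * α + β m) • x)^[n] h = (Z ^ n) h := by
      intro n
      induction n with
      | zero => rfl
      | succ n ih =>
        rw [Function.iterate_succ_apply', ih, pow_succ', Module.End.mul_apply, hZv,
          H224.hsOp_mem (hZpm d m h hh n)]
    rw [← h1, hn]
  have hZE := H224.zcomm hE hE0 hnil hκ
  rw [← hZ] at hZE
  by_contra hne
  apply hE0
  have key : (E : R →ₗ[ℂ] R) = 0 := by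
    apply linearMap_ext_graded 𝒜
    rintro ⟨d, m⟩ h hh
    change E h = 0
    have h1 := hZE h
    rw [hZv, hZv, H224.hsOp_mem hh, H224.hsOp_mem (hE d m h hh), map_sub, map_sub,
      E.map_smul] at h1
    have h2 := hκ h
    rw [Derivation.commutator_apply] at h2
    have h3 : (κ + β a) • E h = 0 := by
      rw [add_smul, ← h2]
      have h4 : D (E h) = ((d : ℂ) * α + (β m - β a)) • E h + (E (D h) - ((d : ℂ) * α + β m) • E h) := by
        rw [← h1]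
        abel
      rw [h4]
      module
    refine (smul_eq_zero.1 h3).resolve_left fun h4 => hne ?_
    exact eq_neg_of_add_eq_zero_left h4
  ext x
  exact LinearMap.congr_fun key x

/-- brackets of fields -/
theorem lie_field {a b : Fin r → ℤ} {E D : Derivation ℂ R R} (hE : H93.IsHField 𝒜 a E)
    (hD : H93.IsHField 𝒜 b D) : H93.IsHField 𝒜 (a + b) ⁅E, D⁆ := by
  intro d m h hh
  rw [Derivation.commutator_apply]
  have h1 := hE _ _ _ (hD d m h hh)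
  have h2 := hD _ _ _ (hE d m h hh)
  have e1 : m - b - a = m - (a + b) := by abel
  have e2 : m - a - b = m - (a + b) := by abel
  rw [e1] at h1
  rw [e2] at h2
  exact Submodule.sub_mem _ h1 h2

theorem wz_lie {a : Fin r → ℤ} {E F : Derivation ℂ R R} (hE : H93.IsHField 𝒜 a E)
    (hF : H93.IsHField 𝒜 (-a) F) : Wz 𝒜 ⁅F, E⁆ := by
  intro d m h hh
  have h1 := lie_field hF hE d m h hh
  rwa [neg_add_cancel, sub_zero] at h1

theorem lie_wz {a : Fin r → ℤ} {E D : Derivation ℂ R R} (hD : Wz 𝒜 D)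
    (hE : H93.IsHField 𝒜 a E) : H93.IsHField 𝒜 a ⁅D, E⁆ := by
  have h1 : H93.IsHField 𝒜 0 D := fun d m h hh => by rw [sub_zero]; exact hD d m h hh
  have h2 := lie_field h1 hE
  rwa [zero_add] at h2

/-- The space of fields of weight `χ`. -/
def VV' (𝒜 : ℕ × (Fin r → ℤ) → Submodule ℂ R) (χ : Fin r → ℤ) :
    Submodule ℂ (Derivation ℂ R R) where
  carrier := {D | H93.IsHField 𝒜 χ D}
  zero_mem' := fun _ _ _ _ => Submodule.zero_mem _
  add_mem' := fun ha hb d m h hh => Submodule.add_mem _ (ha d m h hh) (hb d m h hh)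
  smul_mem' := fun c _ ha d m h hh => Submodule.smul_mem _ c (ha d m h hh)

/-- The tangent vectors at a point. -/
def TT (q : R →ₐ[ℂ] ℂ) : Submodule ℂ (R →ₗ[ℂ] ℂ) where
  carrier := {v | IsTangent q v}
  zero_mem' := fun a b => by simp
  add_mem' := fun {v w} hv hw a b => by
    simp only [LinearMap.add_apply]
    rw [hv a b, hw a b]
    ring
  smul_mem' := fun c v hv a b => by
    simp only [LinearMap.smul_apply, smul_eq_mul]
    rw [hv a b]
    ring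

/-- The value at a point. -/
noncomputable def evT (χ : Fin r → ℤ) (q : R →ₐ[ℂ] ℂ) : VV' 𝒜 χ →ₗ[ℂ] TT q where
  toFun D := ⟨q.toLinearMap.comp ((D : Derivation ℂ R R) : R →ₗ[ℂ] R), fun a b => by
    change q ((D : Derivation ℂ R R) (a * b)) = q a * q ((D : Derivation ℂ R R) b) +
      q b * q ((D : Derivation ℂ R R) a)
    rw [Derivation.leibniz, smul_eq_mul, smul_eq_mul, map_add, map_mul, map_mul]⟩
  map_add' D D' := by
    apply Subtype.ext
    apply LinearMap.ext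
    intro x
    change q (((D : Derivation ℂ R R) + (D' : Derivation ℂ R R)) x) =
      q ((D : Derivation ℂ R R) x) + q ((D' : Derivation ℂ R R) x)
    rw [Derivation.add_apply, map_add]
  map_smul' c D := by
    apply Subtype.ext
    apply LinearMap.ext
    intro x
    change q ((c • (D : Derivation ℂ R R)) x) = c • q ((D : Derivation ℂ R R) x)
    rw [Derivation.smul_apply, map_smul]

theorem fin_VV' (hX : IsTorusManifold 𝒜) {y : FP 𝒜} (hiso : ¬ y.Pi 0)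
    {l : (Fin r → ℤ) →+ ℤ} {χ : Fin r → ℤ} (hχ : 0 < l χ)
    (hpos : ∀ ω, y.Pi ω → 0 < l ω ∧ l ω ≤ l χ) : FiniteDimensional ℂ (VV' 𝒜 χ) := by
  have h1 := (finrank_tangent hX y.nv (S := TT y.q) (fun v => Iff.rfl)).1
  refine Module.Finite.of_injective (evT (𝒜 := 𝒜) χ y.q) ?_
  rw [injective_iff_map_eq_zero]
  intro D hD
  apply Subtype.ext
  refine field_zero hX hiso hχ hpos D.2 fun h => ?_
  exact LinearMap.congr_fun (congrArg Subtype.val hD) h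

/-- **A common eigenvector of the weight zero fields.** -/
theorem exists_common (hX : IsTorusManifold 𝒜)
    (tor : ∀ D : Derivation ℂ R R, Wz 𝒜 D → ∃ (α : ℂ) (β : (Fin r → ℤ) →+ ℂ), Tr 𝒜 D α β)
    {y : FP 𝒜} (hiso : ¬ y.Pi 0)
    {l : (Fin r → ℤ) →+ ℤ} {χ : Fin r → ℤ} (hχ : 0 < l χ)
    (hpos : ∀ ω, y.Pi ω → 0 < l ω ∧ l ω ≤ l χ) {E0 : Derivation ℂ R R}
    (hE0 : H93.IsHField 𝒜 χ E0) (hE00 : E0 ≠ 0) :
    ∃ E : Derivation ℂ R R, H93.IsHField 𝒜 χ E ∧ E ≠ 0 ∧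
      ∀ D : Derivation ℂ R R, Wz 𝒜 D → ∃ c : ℂ, ⁅D, E⁆ = c • E := by
  have hfin := fin_VV' hX hiso hχ hpos
  have hnt : Nontrivial (VV' 𝒜 χ) :=
    ⟨⟨⟨E0, hE0⟩, 0, fun h => hE00 (congrArg Subtype.val h)⟩⟩
  let S : Submodule ℂ (Module.End ℂ (VV' 𝒜 χ)) :=
    { carrier := {x | ∃ D : Derivation ℂ R R, Wz 𝒜 D ∧
        ∀ v : VV' 𝒜 χ, ((x v : VV' 𝒜 χ) : Derivation ℂ R R) = ⁅D, (v : Derivation ℂ R R)⁆}
      zero_mem' := ⟨0, fun d m h _ => by simp, fun v => by simp⟩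
      add_mem' := by
        rintro x x' ⟨D, hD, h⟩ ⟨D', hD', h'⟩
        refine ⟨D + D', fun d m z hz => Submodule.add_mem _ (hD d m z hz) (hD' d m z hz),
          fun v => ?_⟩
        rw [LinearMap.add_apply, Submodule.coe_add, h, h', add_lie]
      smul_mem' := by
        rintro c x ⟨D, hD, h⟩
        refine ⟨c • D, fun d m z hz => Submodule.smul_mem _ _ (hD d m z hz), fun v => ?_⟩
        rw [LinearMap.smul_apply, Submodule.coe_smul, h, smul_lie] }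
  obtain ⟨v, hv, hS⟩ := H231.eng S (by
    rintro x ⟨D, hD, h⟩ x' ⟨D', hD', h'⟩
    refine ⟨⁅D, D'⁆, ?_, fun v => ?_⟩
    · intro d m z hz
      rw [Derivation.commutator_apply]
      exact Submodule.sub_mem _ (hD _ _ _ (hD' _ _ _ hz)) (hD' _ _ _ (hD _ _ _ hz))
    · rw [LinearMap.sub_apply, Module.End.mul_apply, Module.End.mul_apply, Submodule.coe_sub, h, h',
        h', h, lie_lie]) (by
    rintro x ⟨D, hD, h⟩
    obtain ⟨α, β, hT⟩ := tor D hD
    refine ⟨-β χ, nil_of_eig x _ fun μ v hv0 hxv => ?_⟩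
    refine eig_val v.2 (fun h0 => hv0 (Subtype.ext h0)) hD hT fun z => ?_
    rw [← h v, hxv, Submodule.coe_smul, Derivation.smul_apply])
  refine ⟨v, v.2, fun h0 => hv (Subtype.ext h0), fun D hD => ?_⟩
  let x : Module.End ℂ (VV' 𝒜 χ) :=
    { toFun := fun v => ⟨⁅D, (v : Derivation ℂ R R)⁆, lie_wz hD v.2⟩
      map_add' := fun a b => Subtype.ext (lie_add _ _ _)
      map_smul' := fun c a => Subtype.ext (lie_smul _ _ _) }
  obtain ⟨c, hc⟩ := hS x ⟨D, hD, fun v => rfl⟩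
  exact ⟨c, congrArg Subtype.val hc⟩

/-- `F E ^ (k + 1) = E ^ (k + 1) F + (k + 1) H E ^ k` for `H = [F, E]` commuting with `E`. -/
theorem iter_comm {E F : Derivation ℂ R R} (hcomm : ∀ h, ⁅F, E⁆ (E h) = E (⁅F, E⁆ h)) (k : ℕ)
    (h : R) : (⇑E)^[k + 1] (F h) =
      F ((⇑E)^[k + 1] h) - ((k : ℂ) + 1) • ⁅F, E⁆ ((⇑E)^[k] h) := by
  induction k with
  | zero =>
    change E (F h) = F (E h) - _ • ⁅F, E⁆ h
    rw [Nat.cast_zero, zero_add, one_smul, Derivation.commutator_apply]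
    abel
  | succ k ih =>
    rw [Function.iterate_succ_apply', ih, map_sub, E.map_smul, ← hcomm,
      ← Function.iterate_succ_apply' E]
    have h2 : E (F ((⇑E)^[k + 1] h)) = F ((⇑E)^[k + 1 + 1] h) -
        ⁅F, E⁆ ((⇑E)^[k + 1] h) := by
      rw [Derivation.commutator_apply, Function.iterate_succ_apply' E (k + 1)]
      abel
    rw [h2]
    push_cast
    module

/-- A uniform power of a field of nonzero weight kills the elements of degree one. -/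
theorem unif_nil (hX : IsTorusManifold 𝒜) {a : Fin r → ℤ} {E : Derivation ℂ R R}
    (hE : H93.IsHField 𝒜 a E) {l : (Fin r → ℤ) →+ ℤ} (hl : 0 < l a) :
    ∃ k : ℕ, ∀ m, ∀ h ∈ 𝒜 (1, m), (⇑E)^[k] h = 0 := by
  let b : (Fin r → ℤ) →+ ℂ :=
    (AddMonoidHom.mulLeft (2 / (l a : ℂ))).comp ((Int.castAddHom ℂ).comp l)
  have hla : (l a : ℂ) ≠ 0 := by exact_mod_cast hl.ne'
  have hb : b a = 2 := by
    change 2 / (l a : ℂ) * (l a : ℂ) = 2
    field_simp
  have hfin := H939.finite_deg hX 1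
  have sE := H224.deg_stable (𝒜 := 𝒜) (d := 1) (A := (E : R →ₗ[ℂ] R))
    (fun m h hh => H224.mem_deg (hE 1 m h hh))
  let eV : Module.End ℂ (H939.deg 𝒜 1) := (E : R →ₗ[ℂ] R).restrict sE
  have ce : ∀ x : H939.deg 𝒜 1, ((eV x : H939.deg 𝒜 1) : R) = E x := fun x => rfl
  have h1 : ∀ (n : ℕ) (x : H939.deg 𝒜 1), (((eV ^ n) x : H939.deg 𝒜 1) : R) =
      (⇑E)^[n] (x : R) := by
    intro n x
    induction n with
    | zero => rfl
    | succ n ih =>
      rw [pow_succ', Module.End.mul_apply, ce, ih, Function.iterate_succ_apply']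
  have nile : IsNilpotent eV := by
    rw [Module.End.isNilpotent_iff_of_finite]
    intro x
    obtain ⟨n, hn⟩ := H224.nil_deg (𝒜 := 𝒜) (d := 1) (A := (E : R →ₗ[ℂ] R)) (fun m h hh => by
      obtain ⟨n, hn⟩ := H224.iter_E_eventually hX hE hb hh
      refine ⟨n, ?_⟩
      rw [Module.End.pow_apply]
      exact hn) x x.2
    refine ⟨n, Subtype.ext ?_⟩
    rw [h1]
    rw [Module.End.pow_apply] at hn
    exact hn
  obtain ⟨k, hk⟩ := nile
  refine ⟨k, fun m h hh => ?_⟩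
  have h2 := h1 k ⟨h, H224.mem_deg hh⟩
  rw [hk] at h2
  exact h2.symm

/-- **The orbit argument.** If the bracket of a field `F` of weight `-χ` with the field `E` has
eigenvalue zero on the fields of weight `χ`, then `F` vanishes along the orbit of the source. -/
theorem orbit_zero (hX : IsTorusManifold 𝒜) {y : FP 𝒜} (hiso : ¬ y.Pi 0)
    {l : (Fin r → ℤ) →+ ℤ} {χ : Fin r → ℤ} (hχ : 0 < l χ)
    (hpos : ∀ ω, y.Pi ω → 0 < l ω ∧ l ω ≤ l χ) {E F : Derivation ℂ R R}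
    (hE : H93.IsHField 𝒜 χ E) (hE0 : E ≠ 0) (hF : H93.IsHField 𝒜 (-χ) F) {κ : ℂ}
    (hκ : ∀ h, ⁅⁅F, E⁆, E⁆ h = κ • E h) {α : ℂ} {β : (Fin r → ℤ) →+ ℂ}
    (hT : Tr 𝒜 ⁅F, E⁆ α β) (hβ : β χ = 0) (k : ℕ) (h : R) : y.q ((⇑E)^[k] (F h)) = 0 := by
  classical
  have hχ0 : χ ≠ 0 := by
    rintro rfl
    rw [map_zero] at hχ
    exact lt_irrefl _ hχ
  have hH := wz_lie hE hF
  have hκ0 : κ = 0 := by rw [eig_val hE hE0 hH hT hκ, hβ, neg_zero]
  have hcomm : ∀ h, ⁅F, E⁆ (E h) = E (⁅F, E⁆ h) := by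
    intro h
    have h1 := hκ h
    rw [hκ0, zero_smul, Derivation.commutator_apply, sub_eq_zero] at h1
    exact h1
  have hFy : ∀ h, y.q (F h) = 0 := H224.field_vanish y.fix (neg_ne_zero.2 hχ0) hF (fun h1 => by
    have h2 := (hpos _ h1).1
    rw [map_neg] at h2
    linarith)
  -- the value of `H` at `y`
  have hf0 : H93.IsHField 𝒜 0 ⁅F, E⁆ := fun d m h hh => by
    rw [sub_zero]
    exact hH d m h hh
  obtain ⟨c, hc⟩ : ∃ c : ℂ, ∀ (d : ℕ) (m : Fin r → ℤ), ∀ h ∈ 𝒜 (d, m),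
      y.q (⁅F, E⁆ h) = c * d * y.q h := by
    by_contra hcon
    push Not at hcon
    exact hiso ⟨_, H224.isTangent_value y.q ⁅F, E⁆, H224.hasWeight_value y.fix hf0, hcon⟩
  obtain ⟨f, hf, hfne⟩ := exists_deg_one_ne hX.gen y.nv y.fix
  have hs : c = α + β y.ν := by
    obtain ⟨n, hn⟩ := hT 1 y.ν f hf
    have h2 : ∀ n : ℕ, ((fun x : R => ⁅F, E⁆ x - (((1 : ℕ) : ℂ) * α + β y.ν) • x)^[n] f) ∈
        𝒜 (1, y.ν) ∧ y.q ((fun x : R => ⁅F, E⁆ x - (((1 : ℕ) : ℂ) * α + β y.ν) • x)^[n] f) =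
          (c - (α + β y.ν)) ^ n * y.q f := by
      intro n
      induction n with
      | zero => exact ⟨hf, by simp⟩
      | succ n ih =>
        rw [Function.iterate_succ_apply']
        refine ⟨Submodule.sub_mem _ (hH _ _ _ ih.1) (Submodule.smul_mem _ _ ih.1), ?_⟩
        rw [map_sub, map_smul, hc 1 _ _ ih.1, ih.2, smul_eq_mul, pow_succ]
        push_cast
        ring
    have h3 := (h2 n).2
    rw [hn, map_zero] at h3
    by_contra h5
    exact mul_ne_zero (pow_ne_zero n (sub_ne_zero.2 h5)) hfne h3.symm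
  -- the eigenvalue is zero
  have hs0 : α + β y.ν = 0 := by
    let P : ℕ → Prop := fun k => ∀ (m : Fin r → ℤ), (∃ j : ℤ, m = y.ν + j • χ) →
      ∀ x ∈ 𝒜 (1, m), (⇑E)^[k] x = 0
    have hex : ∃ k, P k := by
      obtain ⟨k, hk⟩ := unif_nil hX hE hχ
      exact ⟨k, fun m _ x hx => hk m x hx⟩
    have h1 : P (Nat.find hex) := Nat.find_spec hex
    have h2 : Nat.find hex ≠ 0 := by
      intro h3
      rw [h3] at h1
      have h4 := h1 y.ν ⟨0, by rw [zero_smul, add_zero]⟩ f hf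
      change f = 0 at h4
      exact hfne (by rw [h4, map_zero])
    obtain ⟨k, hk⟩ := Nat.exists_eq_succ_of_ne_zero h2
    have h3 : ¬ P k := Nat.find_min hex (by omega)
    rw [hk] at h1
    simp only [P] at h3
    push Not at h3
    obtain ⟨m, ⟨j, hj⟩, x, hx, hxne⟩ := h3
    have h4 := iter_comm hcomm k x
    have h5 : (⇑E)^[k + 1] x = 0 := h1 m ⟨j, hj⟩ x hx
    have h6 : (⇑E)^[k + 1] (F x) = 0 := by
      refine h1 (m - -χ) ⟨j + 1, ?_⟩ (F x) (hF 1 m x hx)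
      rw [hj, sub_neg_eq_add, add_smul, one_smul]
      abel
    rw [h5, h6, map_zero, zero_sub, eq_comm, neg_eq_zero] at h4
    have h7 : ⁅F, E⁆ ((⇑E)^[k] x) = 0 :=
      (smul_eq_zero.1 h4).resolve_left (Nat.cast_add_one_ne_zero k)
    set w := (⇑E)^[k] x with hw
    have hwm : w ∈ 𝒜 (1, m - k • χ) := H224.iter_mem hE hx k
    obtain ⟨n, hn⟩ := hT 1 _ w hwm
    have hβ' : β (m - k • χ) = β y.ν := by
      rw [hj, map_sub, map_add, map_zsmul, map_nsmul, hβ, smul_zero, smul_zero, add_zero, sub_zero]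
    have h8 : ∀ n : ℕ, (fun x : R => ⁅F, E⁆ x - (((1 : ℕ) : ℂ) * α + β (m - k • χ)) • x)^[n] w =
        (-(α + β y.ν)) ^ n • w := by
      intro n
      induction n with
      | zero => simp
      | succ n ih =>
        rw [Function.iterate_succ_apply', ih, hβ', Derivation.map_smul, h7, smul_zero, zero_sub,
          smul_smul, ← neg_smul, pow_succ']
        congr 1
        push_cast
        ring
    rw [h8] at hn
    have h9 := (smul_eq_zero.1 hn).resolve_right hxne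
    exact neg_eq_zero.1 (eq_zero_of_pow_eq_zero h9)
  have hH0 : ∀ h, y.q (⁅F, E⁆ h) = 0 := by
    have key : y.q.toLinearMap.comp ((⁅F, E⁆ : Derivation ℂ R R) : R →ₗ[ℂ] R) = 0 := by
      apply linearMap_ext_graded 𝒜
      rintro ⟨d, m⟩ h hh
      change y.q (⁅F, E⁆ h) = 0
      rw [hc d m h hh, hs, hs0, zero_mul, zero_mul]
    intro h
    exact LinearMap.congr_fun key h
  cases k with
  | zero => exact hFy h
  | succ k => rw [iter_comm hcomm, map_sub, hFy, map_smul, hH0, smul_zero, sub_zero]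

/-- **Lemma M for top weights.** -/
theorem top_mult (hX : IsTorusManifold 𝒜) (hN : NefOnRationalCurves 𝒜)
    (hiso : ∀ x ν, ¬ IsVertex 𝒜 x → IsFixed 𝒜 x ν → ¬ TangentWeight 𝒜 x ν 0)
    (tor : ∀ D : Derivation ℂ R R, (∀ d m, ∀ h ∈ 𝒜 (d, m), D h ∈ 𝒜 (d, m)) →
      ∃ (α : ℂ) (β : (Fin r → ℤ) →+ ℂ), ∀ d m, ∀ h ∈ 𝒜 (d, m), ∃ n : ℕ,
        (fun x : R => D x - ((d : ℂ) * α + β m) • x)^[n] h = 0)
    {l : (Fin r → ℤ) →+ ℤ} (hl : ∀ μ, Wt 𝒜 μ → l μ ≠ 0) {χ : Fin r → ℤ} (hpos : 0 < l χ)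
    (hmax : ∀ μ, Wt 𝒜 μ → l μ ≤ l χ) (y : FP 𝒜) (hy : y.Pi χ) :
    ∀ v v' : R →ₗ[ℂ] ℂ, IsTangent y.q v → HasWeight 𝒜 y.ν χ v → IsTangent y.q v' →
      HasWeight 𝒜 y.ν χ v' → ∃ c c' : ℂ, (c ≠ 0 ∨ c' ≠ 0) ∧ ∀ h, c * v h + c' * v' h = 0 := by
  classical
  have hχ0 : χ ≠ 0 := by
    rintro rfl
    rw [map_zero] at hpos
    exact lt_irrefl _ hpos
  -- the sources
  obtain ⟨g, hg⟩ := H587.exists_generic (S := H587.wts 𝒜) (finite_weights hX)
  have hmin : ∀ μ, Wt 𝒜 μ → -l χ ≤ l μ := by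
    rintro μ ⟨z, hz⟩
    have h1 := H93.neg_bound hX hg hpos (fun x ν ω hx0 hx hω => hmax ω ⟨⟨x, ν, hx0, hx⟩, hω⟩)
      _ _ _ z.nv z.fix hz
    have h2 : (-l) μ = - l μ := rfl
    omega
  obtain ⟨y0, hy0⟩ := exists_pos0 hX l
  obtain ⟨y1, hy1⟩ := exists_pos0 hX (-l)
  have hp0 : ∀ ω, y0.Pi ω → 0 < l ω ∧ l ω ≤ l χ := fun ω hω =>
    ⟨lt_of_le_of_ne (hy0 ω hω) (hl ω ⟨y0, hω⟩).symm, hmax ω ⟨y0, hω⟩⟩
  have hL : Liftable 𝒜 χ := liftable_of_isExtremal hX hN ⟨l, y0.q, y0.ν, y0.nv, y0.fix, hp0⟩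
  have hL' : Liftable 𝒜 (-χ) := by
    refine liftable_of_isExtremal hX hN ⟨-l, y1.q, y1.ν, y1.nv, y1.fix, fun ω hω => ?_⟩
    have h1 := hy1 ω hω
    have h2 := hl ω ⟨y1, hω⟩
    have h3 := hmin ω ⟨y1, hω⟩
    have h4 : (-l) ω = - l ω := rfl
    have h5 : (-l) (-χ) = l χ := by
      change - l (-χ) = l χ
      rw [map_neg, neg_neg]
    rw [h4] at h1
    rw [h4, h5]
    omega
  have hi0 : ¬ y0.Pi 0 := hiso y0.q y0.ν y0.nv y0.fix
  -- a field
  obtain ⟨E0, hE0, hE00⟩ : ∃ E0 : Derivation ℂ R R, H93.IsHField 𝒜 χ E0 ∧ E0 ≠ 0 := by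
    obtain ⟨v, hv, hw, hne⟩ := id hy
    obtain ⟨D, hD, hDv⟩ := hL y.q y.ν y.nv y.fix hy v hv hw
    refine ⟨D, hD, ?_⟩
    rintro rfl
    obtain ⟨d, m, h, hh, h1⟩ := hne 0
    apply h1
    rw [zero_mul, zero_mul, ← hDv h]
    exact map_zero _
  obtain ⟨E, hE, hEne, hcom⟩ := exists_common hX tor hi0 hpos hp0 hE0 hE00
  have hcom' : ∀ D : Derivation ℂ R R, Wz 𝒜 D → ∃ c : ℂ, ∀ h, ⁅D, E⁆ h = c • E h := by
    intro D hD
    obtain ⟨c, hc⟩ := hcom D hD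
    exact ⟨c, fun h => by rw [hc, Derivation.smul_apply]⟩
  -- the bracket is not zero
  obtain ⟨F, hF, α, β, hT, hβ⟩ : ∃ F : Derivation ℂ R R, H93.IsHField 𝒜 (-χ) F ∧
      ∃ (α : ℂ) (β : (Fin r → ℤ) →+ ℂ), Tr 𝒜 ⁅F, E⁆ α β ∧ β χ ≠ 0 := by
    by_contra hcon
    push Not at hcon
    have hEy : ∃ h, y0.q (E h) ≠ 0 := by
      by_contra h0
      push Not at h0
      exact hEne (field_zero hX hi0 hpos hp0 hE h0)
    obtain ⟨p, μ, hpv, hp, hpw, hpF⟩ := exists_limit_all hX y0.nv y0.fix hE hpos hEy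
    obtain ⟨v, hv, hw, hne⟩ := id hpw
    obtain ⟨D, hD, hDv⟩ := hL' p μ hpv hp hpw v hv hw
    obtain ⟨d, m, h, hh, h1⟩ := hne 0
    apply h1
    rw [zero_mul, zero_mul, ← hDv h]
    obtain ⟨κ, hκ⟩ := hcom' _ (wz_lie hE hD)
    obtain ⟨α, β, hT⟩ := tor _ (wz_lie hE hD)
    exact hpF D hD (fun k x => orbit_zero hX hi0 hpos hp0 hE hEne hD hκ hT (hcon D hD α β hT) k x) h
  have hH := wz_lie hE hF
  -- fields of weight `2 χ`
  have h2χ : ∀ D : Derivation ℂ R R, H93.IsHField 𝒜 χ D → ⁅E, D⁆ = 0 := by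
    intro D hD
    refine field_out hX (y := y0) (l := l) (a := l χ) hpos.le
      (fun ω hω => ⟨(hp0 ω hω).1.le, (hp0 ω hω).2⟩) (ω := χ + χ) ?_ (lie_field hE hD)
    rw [map_add]
    omega
  have hHD : ∀ D : Derivation ℂ R R, H93.IsHField 𝒜 χ D → ∃ c : ℂ, ⁅⁅F, E⁆, D⁆ = c • E := by
    intro D hD
    obtain ⟨c, hc⟩ := hcom _ (wz_lie hD hF)
    refine ⟨c, ?_⟩
    rw [lie_lie, h2χ D hD, lie_zero, zero_sub, lie_skew]
    exact hc
  have hinj : ∀ D : Derivation ℂ R R, H93.IsHField 𝒜 χ D → ⁅⁅F, E⁆, D⁆ = 0 → D = 0 := by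
    intro D hD h0
    by_contra hne
    have h1 := eig_val hD hne hH hT (κ := 0) (fun h => by
      rw [h0, zero_smul]
      rfl)
    exact hβ (by rw [← neg_eq_zero, ← h1])
  -- the conclusion
  intro v v' hv hw hv' hw'
  obtain ⟨D, hD, hDv⟩ := hL y.q y.ν y.nv y.fix hy v hv hw
  obtain ⟨D', hD', hDv'⟩ := hL y.q y.ν y.nv y.fix hy v' hv' hw'
  obtain ⟨c, hc⟩ := hHD D hD
  obtain ⟨c', hc'⟩ := hHD D' hD'
  by_cases h0 : c = 0
  · have h1 : D = 0 := hinj D hD (by rw [hc, h0, zero_smul])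
    refine ⟨1, 0, Or.inl one_ne_zero, fun h => ?_⟩
    rw [← hDv h, h1]
    simp
  · have h1 : c' • D - c • D' = 0 := by
      refine hinj _ ((VV' 𝒜 χ).sub_mem ((VV' 𝒜 χ).smul_mem _ hD) ((VV' 𝒜 χ).smul_mem _ hD')) ?_
      rw [lie_sub, lie_smul, lie_smul, hc, hc', smul_smul, smul_smul, mul_comm, sub_self]
    refine ⟨c', -c, Or.inr (neg_ne_zero.2 h0), fun h => ?_⟩
    rw [← hDv h, ← hDv' h]
    have h2 : (c' • D - c • D') h = 0 := by rw [h1]; rfl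
    have h3 := congrArg y.q h2
    rw [Derivation.sub_apply, Derivation.smul_apply, Derivation.smul_apply, map_sub, map_smul,
      map_smul, map_zero, smul_eq_mul, smul_eq_mul] at h3
    linear_combination h3

end Vale.Agent.P280.H11
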