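import Vale.Agent.P280.H151.End3
import Vale.Agent.P280.H11.TopMult

/-! P280: the theorem on balanced weights, the extremal ones excepted. -/

open DirectSum Vale.Agent.P280.T Vale.Agent.P280.H127

namespace Vale.Agent.P280.H11

theorem topMult : H151.TopMult := fun _ _ hX hN hiso tor _ hl _ hpos hmax y hy =>
  top_mult hX hN hiso tor hl hpos hmax y hy

/-- Each weight `χ` which occurs at some fixed point together with `-χ` is maximal for some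
one-parameter group with isolated fixed points, or it has multiplicity one and does not occur with
its double. -/
theorem final3 {r : ℕ} {R : Type} [CommRing R] [Algebra ℂ R]
    {𝒜 : ℕ × (Fin r → ℤ) → Submodule ℂ R} [GradedAlgebra 𝒜] (hX : IsTorusManifold 𝒜)
    (hN : NefOnRationalCurves 𝒜)
    (hbal : ∀ y ξ χ, ¬ IsVertex 𝒜 y → IsFixed 𝒜 y ξ → TangentWeight 𝒜 y ξ χ →
      TangentWeight 𝒜 y ξ (-χ) →
      (∃ l : (Fin r → ℤ) →+ ℤ, 0 < l χ ∧ ∀ x ν μ, ¬ IsVertex 𝒜 x → IsFixed 𝒜 x ν →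
        TangentWeight 𝒜 x ν μ → l μ ≠ 0 ∧ l μ ≤ l χ) ∨
      ∀ x ν, ¬ IsVertex 𝒜 x → IsFixed 𝒜 x ν → TangentWeight 𝒜 x ν χ →
        ¬ TangentWeight 𝒜 x ν (2 • χ) ∧
        ∀ v v' : R →ₗ[ℂ] ℂ, IsTangent x v → HasWeight 𝒜 ν χ v → IsTangent x v' →
          HasWeight 𝒜 ν χ v' → ∃ c c' : ℂ, (c ≠ 0 ∨ c' ≠ 0) ∧ ∀ h, c * v h + c' * v' h = 0) :
    (∀ χ : Fin r → ℤ, Liftable 𝒜 χ) ∧ IsHomogeneousManifold 𝒜 ∧ IsTransitive 𝒜 :=
  H151.final_of topMult hX hN hbal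

end Vale.Agent.P280.H11
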