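import Vale.Agent.P280.H746.CurvePt
import Vale.Agent.P271.H879.RegDom

/-! P280, plan OPP, row Z0: a part of a system of homogeneous parameters at a fixed point
generates, locally, a prime ideal. -/

open DirectSum Vale.Agent.P280.T Vale.Agent.P280.H127 Vale.Agent.P280.N IsLocalRing

namespace Vale.Agent.P280.H11

universe v

/-- Part of a regular system of parameters generates a prime ideal. -/
theorem isPrime_span_part {S : Type v} [CommRing S] [IsRegularLocalRing S] {n : ℕ} {x : Fin n → S}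
    (hx : Ideal.span (Set.range x) = maximalIdeal S) (hn : (n : WithBot ℕ∞) = ringKrullDim S)
    (J : Finset (Fin n)) : (Ideal.span (x '' (J : Set (Fin n)))).IsPrime := by
  classical
  have hxm : ∀ i, x i ∈ maximalIdeal S := fun i => hx ▸ Ideal.subset_span ⟨i, rfl⟩
  set I := Ideal.span (x '' (J : Set (Fin n))) with hI
  have hIm : I ≤ maximalIdeal S := by
    rw [hI, Ideal.span_le]
    rintro _ ⟨i, -, rfl⟩
    exact hxm i
  have hne : Nontrivial (S ⧸ I) := by
    refine Ideal.Quotient.nontrivial_iff.2 ?_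
    intro h
    exact (maximalIdeal.isMaximal S).ne_top (top_le_iff.1 (h ▸ hIm))
  have hloc : IsLocalRing (S ⧸ I) :=
    IsLocalRing.of_surjective' (Ideal.Quotient.mk _) Ideal.Quotient.mk_surjective
  set π := Ideal.Quotient.mk I with hπ
  have hmax : (maximalIdeal S).map π = maximalIdeal (S ⧸ I) := by
    have : IsLocalHom π := by
      refine IsLocalHom.of_surjective π Ideal.Quotient.mk_surjective
    rw [IsLocalRing.eq_maximalIdeal (Ideal.map_eq_top_or_isMaximal_of_surjective π
      Ideal.Quotient.mk_surjective (maximalIdeal.isMaximal S) |>.resolve_left ?_)]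
    intro h
    have h2 := ((local_hom_TFAE π).out 0 2).1 this
    exact (maximalIdeal.isMaximal _).ne_top (top_le_iff.1 (h ▸ h2))
  have hgen : Ideal.span ((fun i => π (x i)) '' ((Jᶜ : Finset (Fin n)) : Set (Fin n))) =
      maximalIdeal (S ⧸ I) := by
    rw [← hmax, ← hx, Ideal.map_span]
    refine le_antisymm (Ideal.span_mono ?_) (Ideal.span_le.2 ?_)
    · rintro _ ⟨i, -, rfl⟩
      exact ⟨x i, ⟨i, rfl⟩, rfl⟩
    · rintro _ ⟨_, ⟨i, rfl⟩, rfl⟩
      by_cases hi : i ∈ J
      · have h0 : π (x i) = 0 :=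
          Ideal.Quotient.eq_zero_iff_mem.2 (Ideal.subset_span ⟨i, hi, rfl⟩)
        rw [h0]
        exact Ideal.zero_mem _
      · exact Ideal.subset_span ⟨i, by simpa using hi, rfl⟩
  have hcard : (maximalIdeal (S ⧸ I)).spanFinrank + J.card ≤ n := by
    have h1 : (maximalIdeal (S ⧸ I)).spanFinrank ≤ (Jᶜ : Finset (Fin n)).card := by
      rw [← hgen]
      refine (Submodule.spanFinrank_span_le_ncard_of_finite
        (((Jᶜ : Finset (Fin n)).finite_toSet).image _)).trans ?_
      exact (Set.ncard_image_le ((Jᶜ : Finset (Fin n)).finite_toSet)).trans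
        (Set.ncard_coe_finset _).le
    have h2 := Finset.card_compl_add_card J
    rw [Fintype.card_fin] at h2
    omega
  have hdim : ringKrullDim S ≤ ringKrullDim (S ⧸ I) + J.card := by
    have h1 := ringKrullDim_le_ringKrullDim_quotient_add_card (R := S) (J.image x) (by
      rw [IsLocalRing.ringJacobson_eq_maximalIdeal, Finset.coe_image]
      rintro _ ⟨i, -, rfl⟩
      exact hxm i)
    rw [Finset.coe_image] at h1
    refine h1.trans ?_
    gcongr
    exact_mod_cast Finset.card_image_le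
  have h3 : ((maximalIdeal (S ⧸ I)).spanFinrank : WithBot ℕ∞) + J.card ≤
      ringKrullDim (S ⧸ I) + J.card := by
    refine le_trans ?_ (hn.le.trans hdim)
    exact_mod_cast hcard
  have h4 : ((maximalIdeal (S ⧸ I)).spanFinrank : WithBot ℕ∞) ≤ ringKrullDim (S ⧸ I) :=
    (ENat.WithBot.add_le_add_natCast_right_iff).1 h3
  have hreg := IsRegularLocalRing.of_spanFinrank_maximalIdeal_le _ h4
  have hdom := Vale.Agent.P271.H879.Reg.isDomain (S ⧸ I)
  exact (Ideal.Quotient.isDomain_iff_prime _).1 hdom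

section

variable {r : ℕ} {R : Type} [CommRing R] [IsDomain R] [Algebra ℂ R]
  {𝒜 : ℕ × (Fin r → ℤ) → Submodule ℂ R} [GradedAlgebra 𝒜]

omit [IsDomain R] in
theorem prime_span (hX : IsTorusManifold 𝒜) (y : FP 𝒜) {n : ℕ} {u : Fin n → R}
    {wt : Fin n → Fin r → ℤ}
    (G : Gens (coarse 𝒜 (rl (AddMonoidHom.id (Fin r → ℤ)) y.ν)) y.q u wt)
    (hn : (n : ℕ∞) = (mx y.q).height) (J : Set (Fin n)) {a b : R}
    (h : ∃ t, y.q t = 1 ∧ t * (a * b) ∈ Ideal.span (u '' J)) :
    (∃ t, y.q t = 1 ∧ t * a ∈ Ideal.span (u '' J)) ∨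
      ∃ t, y.q t = 1 ∧ t * b ∈ Ideal.span (u '' J) := by
  classical
  have := noeth hX
  have hreg : IsRegularLocalRing (Localization.AtPrime (mx y.q)) := hX.smooth y.q y.nv (mx y.q) rfl
  set O := Localization.AtPrime (mx y.q) with hO
  set x : Fin n → O := fun i => algebraMap R O (u i) with hxdef
  have hmap : Ideal.map (algebraMap R O) (mx y.q) = maximalIdeal O :=
    Localization.AtPrime.map_eq_maximalIdeal
  obtain ⟨s, -, hs1, hs⟩ := G.gen
  have hunit : ∀ t : R, y.q t = 1 → IsUnit (algebraMap R O t) := by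
    intro t ht
    refine IsLocalization.map_units O (⟨t, ?_⟩ : (mx y.q).primeCompl)
    intro h2
    have h3 := mem_mx.mp h2
    rw [ht] at h3
    exact one_ne_zero h3
  have hx : Ideal.span (Set.range x) = maximalIdeal O := by
    rw [← hmap]
    refine le_antisymm (Ideal.span_le.2 ?_) (Ideal.map_le_iff_le_comap.2 ?_)
    · rintro _ ⟨i, rfl⟩
      exact Ideal.mem_map_of_mem _ (mem_mx.mpr (G.zero i))
    · intro z hz
      rw [Ideal.mem_comap]
      have h1 := Ideal.mem_map_of_mem (algebraMap R O) (hs z hz)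
      rw [Ideal.map_span, ← Set.range_comp, map_mul] at h1
      exact (Ideal.unit_mul_mem_iff_mem _ (hunit s hs1)).1 h1
  have hdim : (n : WithBot ℕ∞) = ringKrullDim O := by
    rw [IsLocalization.AtPrime.ringKrullDim_eq_height (mx y.q), ← hn]
    rfl
  have hP := isPrime_span_part hx hdim J.toFinset
  have himg : Ideal.span (x '' ((J.toFinset : Finset (Fin n)) : Set (Fin n))) =
      Ideal.map (algebraMap R O) (Ideal.span (u '' J)) := by
    rw [Ideal.map_span, Set.coe_toFinset, Set.image_image]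
  rw [himg] at hP
  have hback : ∀ c : R, algebraMap R O c ∈ Ideal.map (algebraMap R O) (Ideal.span (u '' J)) →
      ∃ t, y.q t = 1 ∧ t * c ∈ Ideal.span (u '' J) := by
    intro c hc
    obtain ⟨t, ht, h3⟩ := (IsLocalization.algebraMap_mem_map_algebraMap_iff (mx y.q).primeCompl
      O (Ideal.span (u '' J)) c).mp hc
    have ht' : y.q t ≠ 0 := fun h4 => ht (mem_mx.mpr h4)
    refine ⟨algebraMap ℂ R (y.q t)⁻¹ * t, ?_, ?_⟩
    · rw [map_mul, AlgHom.commutes]
      exact inv_mul_cancel₀ ht'
    · rw [mul_assoc]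
      exact Ideal.mul_mem_left _ _ h3
  obtain ⟨t, ht, h⟩ := h
  have h1 := Ideal.mem_map_of_mem (algebraMap R O) h
  rw [map_mul, map_mul] at h1
  rcases hP.mem_or_mem ((Ideal.unit_mul_mem_iff_mem _ (hunit t ht)).1 h1) with h2 | h2
  · exact Or.inl (hback a h2)
  · exact Or.inr (hback b h2)

end

end Vale.Agent.P280.H11
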