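import Vale.Agent.P280.H746.CurvePt

/-! P280, plan OPP, row Z1: a point of the `T`-surface of the multiples of a weight, on a given
divisor through the fixed point. -/

open DirectSum Vale.Agent.P280.T Vale.Agent.P280.H127 Vale.Agent.P280.N

namespace Vale.Agent.P280.H11

open Vale.Agent.P280.H746

variable {r : ℕ} {R : Type} [CommRing R] [IsDomain R] [Algebra ℂ R]
  {𝒜 : ℕ × (Fin r → ℤ) → Submodule ℂ R} [GradedAlgebra 𝒜]

omit [IsDomain R] in
theorem exists_pt2 (hX : IsTorusManifold 𝒜) (y : FP 𝒜) {a : Fin r → ℤ} (ha0 : a ≠ 0) {n : ℕ}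
    {u : Fin n → R} {wt : Fin n → Fin r → ℤ}
    (G : Gens (coarse 𝒜 (rl (AddMonoidHom.id (Fin r → ℤ)) y.ν)) y.q u wt)
    (hn : (n : ℕ∞) = (mx y.q).height) {i1 i2 : Fin n} (h12 : i1 ≠ i2)
    (h1 : ∃ j : ℕ, 1 ≤ j ∧ wt i1 = j • a) (h2 : ∃ j : ℕ, 1 ≤ j ∧ wt i2 = j • a)
    {g : R} (hg : y.q g = 0) :
    ∃ p : R →ₐ[ℂ] ℂ,
      (∀ w, (∀ i : ℕ, w ≠ i • a) → ∀ x ∈ coarse 𝒜 (rl (AddMonoidHom.id (Fin r → ℤ)) y.ν) w,
        p x = 0) ∧
      (∀ x ∈ coarse 𝒜 (rl (AddMonoidHom.id (Fin r → ℤ)) y.ν) 0, p x = y.q x) ∧ p g = 0 ∧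
      ∃ j : ℕ, 1 ≤ j ∧ ∃ z ∈ coarse 𝒜 (rl (AddMonoidHom.id (Fin r → ℤ)) y.ν) (j • a),
        p z ≠ 0 := by
  classical
  have := noeth hX
  have hft := hX.finiteType
  have hF := fix_of_isFixed y.fix
  set ℬ := coarse 𝒜 (rl (AddMonoidHom.id (Fin r → ℤ)) y.ν) with hℬ
  set S : Set R := {x | ∃ w, (∀ i : ℕ, w ≠ i • a) ∧ x ∈ ℬ w} ∪ {x | x ∈ ℬ 0 ∧ y.q x = 0} with hS
  set J : Set (Fin n) := {i | ¬ ∃ j : ℕ, 1 ≤ j ∧ wt i = j • a} with hJ
  set C : Set (Fin r → ℤ) := {w | w = 0 ∨ ∀ i : ℕ, w ≠ i • a} with hC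
  have hCC : ∀ w ∈ C, ∀ i ∉ J, w - wt i ∈ C ∧ w - wt i ≠ 0 := by
    intro w hw i hi
    obtain ⟨j, hj, hij⟩ : ∃ j : ℕ, 1 ≤ j ∧ wt i = j • a := by
      by_contra h
      exact hi h
    rw [hij]
    rcases hw with rfl | hw
    · have key : ∀ k : ℕ, 0 - j • a ≠ k • a := by
        intro k hk
        have h1 : (-(j : ℤ)) • a = (k : ℤ) • a := by
          rw [natCast_zsmul, ← hk, neg_smul, natCast_zsmul, zero_sub]
        have h2 := smul_inj ha0 h1
        omega
      exact ⟨Or.inr key, fun h => key 0 (by rw [h, zero_smul])⟩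
    · refine ⟨Or.inr fun k hk => hw (k + j) ?_, fun h => hw j ?_⟩
      · rw [add_smul, ← hk, sub_add_cancel]
      · rw [← sub_eq_zero]; exact h
  have hsub : ∀ x ∈ Ideal.span (insert g S), ∃ t, y.q t = 1 ∧
      t * x ∈ Ideal.span (insert g (u '' J)) := by
    intro x hx
    refine Submodule.span_induction (p := fun x _ => ∃ t, y.q t = 1 ∧
      t * x ∈ Ideal.span (insert g (u '' J))) ?_ ?_ ?_ ?_ hx
    · rintro x (rfl | ⟨w, hw, hxw⟩ | ⟨hx0, hx1⟩)
      · exact ⟨1, map_one _, by rw [one_mul]; exact Ideal.subset_span (Set.mem_insert _ _)⟩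
      · have hw0 : w ≠ 0 := by
          intro h
          exact hw 0 (by rw [h, zero_smul])
        obtain ⟨t, ht, h⟩ := lemmaA hF G (C := C) hCC (Or.inr hw) hxw (mem_mx.mpr (hF w hw0 x hxw))
        exact ⟨t, ht, Ideal.span_mono (Set.subset_insert _ _) h⟩
      · obtain ⟨t, ht, h⟩ := lemmaA hF G (C := C) hCC (Or.inl rfl) hx0 (mem_mx.mpr hx1)
        exact ⟨t, ht, Ideal.span_mono (Set.subset_insert _ _) h⟩
    · exact ⟨1, map_one _, by rw [mul_zero]; exact Ideal.zero_mem _⟩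
    · rintro x x' - - ⟨t, ht, h⟩ ⟨t', ht', h'⟩
      refine ⟨t * t', by rw [map_mul, ht, ht', mul_one], ?_⟩
      rw [mul_add]
      refine Ideal.add_mem _ ?_ ?_
      · rw [mul_comm t t', mul_assoc]; exact Ideal.mul_mem_left _ _ h
      · rw [mul_assoc]; exact Ideal.mul_mem_left _ _ h'
    · rintro b x - ⟨t, ht, h⟩
      refine ⟨t, ht, ?_⟩
      rw [smul_eq_mul, mul_left_comm]
      exact Ideal.mul_mem_left _ _ h
  -- `u i1`, `u i2` are not both in the radical
  have hz : u i1 ∉ (Ideal.span (insert g S)).radical ∨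
      u i2 ∉ (Ideal.span (insert g S)).radical := by
    by_contra hcon
    rw [not_or, not_not, not_not] at hcon
    obtain ⟨⟨k1, hk1⟩, ⟨k2, hk2⟩⟩ := hcon
    obtain ⟨t1, ht1, e1⟩ := hsub _ hk1
    obtain ⟨t2, ht2, e2⟩ := hsub _ hk2
    obtain ⟨s, -, hs1, hs⟩ := G.gen
    set T0 : Finset (Fin n) := (Finset.univ.erase i1).erase i2 with hT0
    have hT0c : T0.card + 1 < n := by
      rw [hT0, Finset.card_erase_of_mem (Finset.mem_erase.2 ⟨h12.symm, Finset.mem_univ _⟩),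
        Finset.card_erase_of_mem (Finset.mem_univ i1), Finset.card_univ, Fintype.card_fin]
      have := i1.2
      have := i2.2
      have : (i1 : ℕ) ≠ i2 := fun h => h12 (Fin.ext h)
      omega
    set T : Finset R := insert g (T0.image u) with hT
    have hTn : T.card < n :=
      ((Finset.card_insert_le _ _).trans (Nat.succ_le_succ Finset.card_image_le)).trans_lt hT0c
    have huT : ∀ i, i ≠ i1 → i ≠ i2 → u i ∈ Ideal.span (T : Set R) := fun i hi hi' =>
      Ideal.subset_span (by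
        rw [hT, Finset.coe_insert, Finset.coe_image]
        exact Or.inr ⟨i, by simp [hT0, hi, hi'], rfl⟩)
    have hJT : Ideal.span (insert g (u '' J)) ≤ Ideal.span (T : Set R) := by
      rw [Ideal.span_le]
      rintro _ (rfl | ⟨i, hi, rfl⟩)
      · exact Ideal.subset_span (by rw [hT, Finset.coe_insert]; exact Or.inl rfl)
      · exact huT i (by rintro rfl; exact hi h1) (by rintro rfl; exact hi h2)
    have hmin : mx y.q ∈ (Ideal.span (T : Set R)).minimalPrimes := by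
      refine ⟨⟨inferInstance, ?_⟩, ?_⟩
      · rw [Ideal.span_le, hT, Finset.coe_insert, Finset.coe_image]
        rintro _ (rfl | ⟨i, -, rfl⟩)
        · exact mem_mx.mpr hg
        · exact mem_mx.mpr (G.zero i)
      · rintro P ⟨hP, hTP⟩ hPq x hx
        have hnot : ∀ t : R, y.q t = 1 → t ∉ P := by
          intro t ht h2
          have h3 := mem_mx.mp (hPq h2)
          rw [ht] at h3
          exact one_ne_zero h3
        have hz1 : u i1 ∈ P := by
          rcases hP.mem_or_mem (hTP (hJT e1)) with h2 | h2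
          · exact absurd h2 (hnot t1 ht1)
          · exact hP.mem_of_pow_mem _ h2
        have hz2 : u i2 ∈ P := by
          rcases hP.mem_or_mem (hTP (hJT e2)) with h2 | h2
          · exact absurd h2 (hnot t2 ht2)
          · exact hP.mem_of_pow_mem _ h2
        have hu : Ideal.span (Set.range u) ≤ P := by
          rw [Ideal.span_le]
          rintro _ ⟨i, rfl⟩
          by_cases hi : i = i1
          · rw [hi]; exact hz1
          · by_cases hi' : i = i2
            · rw [hi']; exact hz2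
            · exact hTP (huT i hi hi')
        rcases hP.mem_or_mem (hu (hs x hx)) with h2 | h2
        · exact absurd h2 (hnot s hs1)
        · exact h2
    have h1 := Ideal.height_le_card_of_mem_minimalPrimes_span_finset hmin
    have h2 : (n : ℕ∞) ≤ T.card := hn.le.trans h1
    exact absurd (by exact_mod_cast h2 : n ≤ T.card) (not_le.mpr hTn)
  have main : ∀ i : Fin n, (∃ j : ℕ, 1 ≤ j ∧ wt i = j • a) →
      u i ∉ (Ideal.span (insert g S)).radical →
      ∃ p : R →ₐ[ℂ] ℂ,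
        (∀ w, (∀ i : ℕ, w ≠ i • a) → ∀ x ∈ ℬ w, p x = 0) ∧
        (∀ x ∈ ℬ 0, p x = y.q x) ∧ p g = 0 ∧
        ∃ j : ℕ, 1 ≤ j ∧ ∃ z ∈ ℬ (j • a), p z ≠ 0 := by
    rintro i ⟨j, hj, hij⟩ hui
    obtain ⟨p, hp, hpz⟩ := exists_point hui
    refine ⟨p, fun w hw x hx => hp x (Ideal.subset_span (Or.inr (Or.inl ⟨w, hw, hx⟩))),
      fun x hx => ?_, hp g (Ideal.subset_span (Set.mem_insert _ _)), j, hj, u i, hij ▸ G.hom i, hpz⟩
    have h1 : x - algebraMap ℂ R (y.q x) ∈ ℬ 0 :=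
      Submodule.sub_mem _ hx (SetLike.algebraMap_mem_graded ℬ (y.q x))
    have h2 := hp _ (Ideal.subset_span (Or.inr (Or.inr ⟨h1, by
      rw [map_sub, AlgHom.commutes]; simp⟩)))
    rw [map_sub, AlgHom.commutes] at h2
    simpa [sub_eq_zero] using h2
  rcases hz with h | h
  · exact main i1 h1 h
  · exact main i2 h2 h

end Vale.Agent.P280.H11
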