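import Vale.Agent.P280.H746.Curve
import Vale.Agent.P280.H11.Pt2
import Vale.Agent.P280.H11.PrimeSpan

/-! P280, plan OPP: LEMMA Z. If the positive multiples of `a` count at least twice among the weights
at `y`, then some fixed point has a positive and a negative multiple of `a` as weights. -/

open DirectSum Vale.Agent.P280.T Vale.Agent.P280.H127 Vale.Agent.P280.N

namespace Vale.Agent.P280.H11

open Vale.Agent.P280.H746

variable {r : ℕ} {R : Type} [CommRing R] [Algebra ℂ R]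
  {𝒜 : ℕ × (Fin r → ℤ) → Submodule ℂ R}

/-- A point of the cone in the cell of `y` in the directions `j • a`. -/
structure Cell (𝒜 : ℕ × (Fin r → ℤ) → Submodule ℂ R) (y : FP 𝒜) (a : Fin r → ℤ)
    (p : R →ₐ[ℂ] ℂ) : Prop where
  out : ∀ w, (∀ i : ℕ, w ≠ i • a) → ∀ x ∈ coarse 𝒜 (rl (AddMonoidHom.id (Fin r → ℤ)) y.ν) w,
    p x = 0
  zero : ∀ x ∈ coarse 𝒜 (rl (AddMonoidHom.id (Fin r → ℤ)) y.ν) 0, p x = y.q x

/-- Homogeneous elements of degree `d` and character `d • ν + w` have relative weight `w`. -/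
theorem mem_rel {d : ℕ} {ν w : Fin r → ℤ} {h : R} (hh : h ∈ 𝒜 (d, d • ν + w)) :
    h ∈ coarse 𝒜 (rl (AddMonoidHom.id (Fin r → ℤ)) ν) w := by
  refine mem_coarse hh ?_
  rw [rl_apply, AddMonoidHom.id_apply]
  abel

variable [GradedAlgebra 𝒜]

/-- **The limit of a point of the cell.** -/
theorem exists_lim (hX : IsTorusManifold 𝒜) {y : FP 𝒜} {a : Fin r → ℤ} (ha0 : a ≠ 0)
    {p : R →ₐ[ℂ] ℂ} (hp : Cell 𝒜 y a p)
    (hne : ∃ j : ℕ, 1 ≤ j ∧ ∃ z ∈ coarse 𝒜 (rl (AddMonoidHom.id (Fin r → ℤ)) y.ν) (j • a),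
      p z ≠ 0) :
    ∃ (z : FP 𝒜) (n : ℕ), 1 ≤ n ∧ z.ν = y.ν + n • a ∧
      (∀ d, ∀ h ∈ 𝒜 (d, d • z.ν), z.q h = p h) ∧ ∃ j' : ℕ, 1 ≤ j' ∧ z.Pi (-(j' • a)) := by
  classical
  obtain ⟨hp0, hp1⟩ := hp
  obtain ⟨jz, hjz, z, hz, hpz⟩ := hne
  -- the point in terms of homogeneous elements
  have hpi : ∀ d m, ∀ h ∈ 𝒜 (d, m), p h ≠ 0 → ∃ i : ℕ, m = d • y.ν + i • a := by
    intro d m h hh hne
    by_contra hcon
    push Not at hcon
    refine hne (hp0 (m - d • y.ν) (fun i hi => hcon i ?_) h (mem_coarse hh ?_))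
    · rw [← hi]; abel
    · rw [rl_apply, AddMonoidHom.id_apply]
  have hpq : ∀ d, ∀ h ∈ 𝒜 (d, d • y.ν), p h = y.q h := by
    intro d h hh
    refine hp1 h (mem_coarse hh ?_)
    rw [rl_apply, AddMonoidHom.id_apply, sub_self]
  obtain ⟨dz, hz1, hhz, hpz1⟩ := exists_comp hz hpz
  obtain ⟨f, hf, hqf⟩ := exists_deg_one_ne hX.gen y.nv y.fix
  have hpf : p f ≠ 0 := by
    rw [hpq 1 f (by rw [one_smul]; exact hf)]
    exact hqf
  -- a functional positive on `a`
  obtain ⟨k0, hk0⟩ := Function.ne_iff.1 ha0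
  set l : (Fin r → ℤ) →+ ℤ := (AddMonoidHom.mulLeft (a k0)).comp (Pi.evalAddMonoidHom _ k0) with hl
  have hla : 0 < l a := by
    have : l a = a k0 * a k0 := rfl
    rw [this]
    exact mul_self_pos.mpr (by simpa using hk0)
  -- the degree of the curve
  set S1 : Set ℕ := {i | ∃ h ∈ 𝒜 (1, y.ν + i • a), p h ≠ 0} with hS1
  have hS1f : S1.Finite := by
    refine Set.Finite.of_finite_image ((finite_weights hX).subset ?_)
      (f := fun i : ℕ => y.ν + i • a) ?_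
    · rintro _ ⟨i, ⟨h, hh, hne⟩, rfl⟩
      exact ⟨h, hh, fun h0 => hne (by rw [h0, map_zero])⟩
    · intro i _ j _ hij
      exact nsmul_inj' ha0 (add_left_cancel hij)
  have hS1n : S1.Nonempty := ⟨0, f, by rw [zero_smul, add_zero]; exact hf, hpf⟩
  obtain ⟨n, ⟨g, hg, hpg⟩, hmax⟩ := Set.exists_max_image S1 id hS1f hS1n
  simp only [id] at hmax
  set ν' : Fin r → ℤ := y.ν + n • a with hν'
  have hle : ∀ d (i : ℕ), ∀ h ∈ 𝒜 (d, d • y.ν + i • a), p h ≠ 0 → i ≤ d * n := by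
    intro d i h hh hne
    have h1 := slope_le hX.gen (-l) (-(l ν')) (RingHom.ker p) (by
      intro m h hh hne
      have hne' : p h ≠ 0 := fun h0 => hne (RingHom.mem_ker.mpr h0)
      obtain ⟨i, hi⟩ := hpi 1 m h hh hne'
      rw [one_smul] at hi
      have h2 := hmax i ⟨h, hi ▸ hh, hne'⟩
      rw [hi, hν', AddMonoidHom.neg_apply, map_add, map_add, map_nsmul, map_nsmul]
      simp only [nsmul_eq_mul]
      have h3 : (i : ℤ) * l a ≤ (n : ℤ) * l a :=
        mul_le_mul_of_nonneg_right (by exact_mod_cast h2) hla.le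
      linarith) d _ h hh (fun h0 => hne (RingHom.mem_ker.mp h0))
    rw [hν', AddMonoidHom.neg_apply] at h1
    simp only [map_add, map_nsmul] at h1
    simp only [nsmul_eq_mul] at h1
    have h2 : (i : ℤ) * l a ≤ ((d * n : ℕ) : ℤ) * l a := by
      push_cast
      linarith
    exact_mod_cast le_of_mul_le_mul_right h2 hla
  have hn1 : 1 ≤ n := by
    have h1 := hle dz jz hz1 hhz hpz1
    by_contra h0
    have : n = 0 := by omega
    rw [this, mul_zero] at h1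
    omega
  -- the other end
  have hwν : ∀ d (i : ℕ), slopeHom (-l) (-(l ν')) (d, d • y.ν + i • a) =
      (((d * n : ℕ) : ℤ) - i) * l a := by
    intro d i
    rw [slopeHom_apply, hν', AddMonoidHom.neg_apply]
    simp only [map_add, map_nsmul]
    simp only [nsmul_eq_mul]
    push_cast
    ring
  obtain ⟨q', hq1, hq0⟩ := exists_limit 𝒜 p (slopeHom (-l) (-(l ν'))) (by
    rintro ⟨d, m⟩ h hh hne
    obtain ⟨i, hi⟩ := hpi d m h hh hne
    have h1 := hle d i h (hi ▸ hh) hne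
    rw [hi, hwν]
    refine mul_nonneg ?_ hla.le
    have : (i : ℤ) ≤ ((d * n : ℕ) : ℤ) := by exact_mod_cast h1
    linarith)
  have hq'1 : ∀ d, ∀ h ∈ 𝒜 (d, d • y.ν + (d * n) • a), q' h = p h := by
    intro d h hh
    refine hq1 _ h hh ?_
    rw [hwν, sub_self, zero_mul]
  have hq'2 : ∀ d m, ∀ h ∈ 𝒜 (d, m), q' h ≠ 0 → m = d • y.ν + (d * n) • a ∧ p h ≠ 0 := by
    intro d m h hh hne
    have h1 : slopeHom (-l) (-(l ν')) (d, m) = 0 := by
      by_contra h1
      exact hne (hq0 _ h hh h1)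
    have h2 := hq1 _ h hh h1
    have h3 : p h ≠ 0 := by rw [← h2]; exact hne
    obtain ⟨i, hi⟩ := hpi d m h hh h3
    rw [hi, hwν] at h1
    rcases mul_eq_zero.1 h1 with h4 | h4
    · have h5 : i = d * n := by
        have : (i : ℤ) = ((d * n : ℕ) : ℤ) := by linarith
        exact_mod_cast this
      exact ⟨by rw [hi, h5], h3⟩
    · exact absurd h4 hla.ne'
  have hdν : ∀ d : ℕ, d • ν' = d • y.ν + (d * n) • a := by
    intro d
    rw [hν', smul_add, smul_smul]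
  have hg' : q' g ≠ 0 := by
    rw [hq'1 1 g (by rw [one_smul, one_mul]; exact hg)]
    exact hpg
  set y' : FP 𝒜 := ⟨q', ν', fun hv => hg' (hv 1 _ one_pos g hg), fun d m h hh hne => by
    rw [hdν]; exact (hq'2 d m h hh hne).1⟩ with hy'
  have hy'q : y'.q = q' := rfl
  have hy'ν : y'.ν = ν' := rfl
  -- local analysis at `y'`
  have := noeth hX
  have hF' := fix_of_isFixed y'.fix
  obtain ⟨n', u', wt', G', hn'⟩ := exists_params_T hX y'.nv hF'
  set ℬ' := coarse 𝒜 (rl (AddMonoidHom.id (Fin r → ℤ)) y'.ν) with hℬ'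
  have hneg : ∀ w, ∀ x ∈ ℬ' w, p x ≠ 0 → ∃ j : ℕ, w = -(j • a) := by
    intro w x hx hne
    obtain ⟨d, h, hh, hph⟩ := exists_comp hx hne
    obtain ⟨i, hi⟩ := hpi d _ h hh hph
    have h1 := hle d i h (hi ▸ hh) hph
    refine ⟨d * n - i, ?_⟩
    rw [hy'ν, hdν] at hi
    have h2 : (d * n) • a = (d * n - i) • a + i • a := by
      rw [← add_smul, Nat.sub_add_cancel h1]
    rw [h2] at hi
    have h3 : (d * n - i) • a + w = 0 := by
      have : d • y.ν + ((d * n - i) • a + i • a) + w = d • y.ν + i • a + ((d * n - i) • a + w) := by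
        abel
      rw [this] at hi
      exact left_eq_add.mp hi.symm
    exact eq_neg_of_add_eq_zero_right h3
  have hzero : ∀ x ∈ ℬ' 0, p x = q' x := by
    intro x hx
    refine coarse_induction (P := fun x => p x = q' x) (by rw [map_zero, map_zero])
      (fun a b ha hb => by rw [map_add, map_add, ha, hb]) ?_ hx
    rintro ⟨d, m⟩ hi h hh
    rw [rl_apply, AddMonoidHom.id_apply, sub_eq_zero, hy'ν, hdν] at hi
    exact (hq'1 d h (hi ▸ hh)).symm
  obtain ⟨s, hs0, hs1, hs⟩ := G'.gen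
  have hps : p s = 1 := by rw [hzero s hs0]; exact hs1
  have hna : ∀ j : ℕ, 1 ≤ j → -(j • a) ≠ 0 := by
    intro j hj h0
    have h1 : j • a = 0 • a := by rw [zero_smul]; exact neg_eq_zero.mp h0
    have := nsmul_inj' ha0 h1
    omega
  have hfx : f ∈ ℬ' (-(n • a)) := by
    refine mem_coarse hf ?_
    rw [rl_apply, AddMonoidHom.id_apply, hy'ν, hν', one_smul]
    abel
  have hxm : f ∈ mx y'.q := mem_mx.mpr (hF' _ (hna n hn1) f hfx)
  have hsx : s * f ∈ ℬ' (-(n • a)) := by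
    have := SetLike.mul_mem_graded hs0 hfx
    rwa [zero_add] at this
  obtain ⟨c, hc, hce⟩ := mem_span_hom G'.hom (hs f hxm) hsx
  have h1 : p (s * f) ≠ 0 := by rw [map_mul, hps, one_mul]; exact hpf
  rw [hce, map_sum] at h1
  obtain ⟨k, -, hk⟩ := Finset.exists_ne_zero_of_sum_ne_zero h1
  rw [map_mul] at hk
  have hk2 := right_ne_zero_of_mul hk
  obtain ⟨j', hj'⟩ := hneg _ _ (G'.hom k) hk2
  have hj'1 : 1 ≤ j' := by
    by_contra h0
    have h0' : j' = 0 := by omega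
    rw [h0', zero_smul, neg_zero] at hj'
    have h2 := G'.hom k
    rw [hj'] at h2
    rw [hzero _ h2] at hk2
    exact hk2 (G'.zero k)
  refine ⟨y', n, hn1, rfl, fun d h hh => ?_, j', hj'1, ?_⟩
  · rw [hy'ν, hdν] at hh
    exact hq'1 d h hh
  · have h2 : TangentWeight 𝒜 y'.q y'.ν (wt' k) :=
      tangentWeight_of_wt hX y'.fix G' hn' (by rw [hj']; exact hna j' hj'1)
    rw [hj'] at h2
    exact h2

/-- Homogeneous parameters at an isolated fixed point, with the Euler one equal to `f - 1`. -/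
theorem exists_gens_euler (hX : IsTorusManifold 𝒜) (z : FP 𝒜) (hiso : ¬ z.Pi 0) {f : R}
    (hf : f ∈ 𝒜 (1, z.ν)) (hf1 : z.q f = 1) :
    ∃ (n : ℕ) (u : Fin n → R) (wt : Fin n → Fin r → ℤ),
      Gens (coarse 𝒜 (rl (AddMonoidHom.id (Fin r → ℤ)) z.ν)) z.q u wt ∧
      (n : ℕ∞) = (mx z.q).height ∧ ∀ k, wt k = 0 → u k = f - 1 := by
  classical
  have := noeth hX
  have hF := fix_of_isFixed z.fix
  obtain ⟨N, U, wt, G, hn⟩ := exists_params_T hX z.nv hF
  obtain ⟨v, hvT, hvu, hvw, -⟩ := G.exists_dual hF hn.le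
  have hw : ∀ i, HasWeight 𝒜 z.ν (wt i) (v i) := fun i => weight_iff.mp (hvw i)
  have uniq : ∀ k l, ∀ c c' : ℂ, (c ≠ 0 ∨ c' ≠ 0) → (∀ h, c * v k h + c' * v l h = 0) →
      k = l := by
    intro k l c c' hc h
    by_contra hkl
    have h1 := h (U k)
    have h2 := h (U l)
    rw [hvu, hvu, if_pos rfl, if_neg (Ne.symm hkl), mul_one, mul_zero, add_zero] at h1
    rw [hvu, hvu, if_pos rfl, if_neg hkl, mul_one, mul_zero, zero_add] at h2
    rcases hc with hc | hc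
    · exact hc h1
    · exact hc h2
  have hone : ∀ k, v k 1 = 0 := by
    intro k
    exact Tan.one (hvT k)
  have heul : ∀ l, wt l = 0 → ∃ c : ℂ, ∀ (d : ℕ) (m : Fin r → ℤ), ∀ h ∈ 𝒜 (d, m),
      v l h = c * d * z.q h := by
    intro l hl
    by_contra hcon
    push Not at hcon
    exact hiso ⟨v l, hvT l, hl ▸ hw l, hcon⟩
  have hnz : ∀ l c, (∀ (d : ℕ) (m : Fin r → ℤ), ∀ h ∈ 𝒜 (d, m), v l h = c * d * z.q h) →
      c ≠ 0 := by
    rintro l c hc rfl
    have h1 : v l (U l) = 0 := by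
      refine hom_ind' 𝒜 (P := fun x => v l x = 0) (map_zero _) (fun a b ha hb => by
        rw [map_add, ha, hb, add_zero]) ?_ (U l)
      rintro ⟨d, m⟩ x hx
      rw [hc d m x hx]
      ring
    rw [hvu, if_pos rfl] at h1
    exact one_ne_zero h1
  have hu0 : ∀ k l, wt k = 0 → wt l = 0 → k = l := by
    intro k l hk hl
    obtain ⟨c, hc⟩ := heul k hk
    obtain ⟨c', hc'⟩ := heul l hl
    refine (uniq l k c (-c') (Or.inl (hnz k c hc)) fun h => ?_).symm
    refine hom_ind' 𝒜 (P := fun x => c * v l x + -c' * v k x = 0) (by simp)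
      (fun a b ha hb => by
        rw [map_add, map_add]
        linear_combination ha + hb) ?_ h
    rintro ⟨d, m⟩ x hx
    rw [hc d m x hx, hc' d m x hx]
    ring
  have hf0 : z.q (f - 1) = 0 := by rw [map_sub, hf1, map_one, sub_self]
  have hfB : f - 1 ∈ coarse 𝒜 (rl (AddMonoidHom.id (Fin r → ℤ)) z.ν) 0 := by
    refine Submodule.sub_mem _ (mem_coarse hf ?_) (SetLike.GradedOne.one_mem)
    rw [rl_apply, AddMonoidHom.id_apply, one_smul, sub_self]
  refine ⟨N, fun k => if wt k = 0 then f - 1 else U k, wt, ?_, hn, fun k hk => if_pos hk⟩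
  refine Gens.of_cotangent hF ?_ ?_ ?_
  · intro i
    by_cases hi : wt i = 0
    · simp only [hi, if_true]
      exact hfB
    · simp only [hi, if_false]
      exact G.hom i
  · intro i
    by_cases hi : wt i = 0
    · simp only [hi, if_true]
      exact hf0
    · simp only [hi, if_false]
      exact G.zero i
  · intro x hx
    obtain ⟨d, hd⟩ := G.expand hx
    have e : x = (x - ∑ i, d i • U i) + ∑ i, d i • U i := by ring
    rw [e]
    refine Ideal.add_mem _ (Ideal.mem_sup_right hd) (Ideal.sum_mem _ fun i _ => ?_)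
    rw [Algebra.smul_def]
    refine Ideal.mul_mem_left _ _ ?_
    by_cases hi : wt i = 0
    · -- the Euler direction
      obtain ⟨c, hc⟩ := G.expand (x := f - 1) (mem_mx.mpr hf0)
      have hcl : ∀ l, c l = v l (f - 1) := by
        intro l
        have h1 : v l (f - 1 - ∑ i, c i • U i) = 0 := Tan.sq (hvT l) hc
        rw [map_sub, map_sum, sub_eq_zero] at h1
        rw [h1]
        have h2 : ∀ i, v l (c i • U i) = if l = i then c i else 0 := by
          intro i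
          rw [map_smul, hvu, smul_eq_mul, mul_ite, mul_one, mul_zero]
        simp_rw [h2]
        rw [Finset.sum_ite_eq Finset.univ l, if_pos (Finset.mem_univ l)]
      have hcl0 : ∀ l, l ≠ i → c l = 0 := by
        intro l hl
        rw [hcl, map_sub, hone, sub_zero]
        by_contra hne
        have h1 := hw l 1 z.ν f hf hne
        rw [one_smul] at h1
        exact hl (hu0 l i (left_eq_add.1 h1) hi)
      have hci : c i ≠ 0 := by
        obtain ⟨c', hc'⟩ := heul i hi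
        rw [hcl, map_sub, hone, sub_zero, hc' _ _ f hf, hf1]
        simpa using hnz i c' hc'
      rw [Finset.sum_eq_single i (fun l _ hl => by rw [hcl0 l hl, zero_smul])
        (fun h => absurd (Finset.mem_univ _) h)] at hc
      have e1 : U i = algebraMap ℂ R (c i)⁻¹ * ((f - 1) - ((f - 1) - c i • U i)) := by
        rw [sub_sub_cancel, ← Algebra.smul_def, smul_smul, inv_mul_cancel₀ hci, one_smul]
      rw [e1]
      refine Ideal.mul_mem_left _ _ (Ideal.sub_mem _ (Ideal.mem_sup_left (Ideal.subset_span ?_))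
        (Ideal.mem_sup_right hc))
      exact ⟨i, if_pos hi⟩
    · exact Ideal.mem_sup_left (Ideal.subset_span ⟨i, if_neg hi⟩)

/-- homogenisation of elements of relative weight zero on the slice `f = 1` -/
theorem exists_homog {ν : Fin r → ℤ} {f : R} (hf : f ∈ 𝒜 (1, ν)) {x : R}
    (hx : x ∈ coarse 𝒜 (rl (AddMonoidHom.id (Fin r → ℤ)) ν) 0) :
    ∃ D0 : ℕ, ∀ D, D0 ≤ D → ∃ T ∈ 𝒜 (D, D • ν), ∀ p : R →ₐ[ℂ] ℂ, p f = 1 → p T = p x := by
  refine coarse_induction (P := fun x => ∃ D0 : ℕ, ∀ D, D0 ≤ D → ∃ T ∈ 𝒜 (D, D • ν),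
    ∀ p : R →ₐ[ℂ] ℂ, p f = 1 → p T = p x) ⟨0, fun D _ => ⟨0, Submodule.zero_mem _, fun p _ => rfl⟩⟩
    ?_ ?_ hx
  · rintro a b ⟨D1, h1⟩ ⟨D2, h2⟩
    refine ⟨max D1 D2, fun D hD => ?_⟩
    obtain ⟨T1, hT1, e1⟩ := h1 D ((le_max_left _ _).trans hD)
    obtain ⟨T2, hT2, e2⟩ := h2 D ((le_max_right _ _).trans hD)
    exact ⟨T1 + T2, Submodule.add_mem _ hT1 hT2, fun p hp => by
      rw [map_add, map_add, e1 p hp, e2 p hp]⟩
  · rintro ⟨d, m⟩ hi h hh
    rw [rl_apply, AddMonoidHom.id_apply, sub_eq_zero] at hi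
    subst hi
    refine ⟨d, fun D hD => ?_⟩
    have hfp : ∀ k : ℕ, f ^ k ∈ 𝒜 (k, k • ν) := by
      intro k
      have h1 := SetLike.pow_mem_graded k hf
      rwa [Prod.smul_mk, smul_eq_mul, mul_one] at h1
    refine ⟨h * f ^ (D - d), ?_, fun p hp => by rw [map_mul, map_pow, hp, one_pow, mul_one]⟩
    have h1 := SetLike.mul_mem_graded hh (hfp (D - d))
    rwa [Prod.mk_add_mk, ← add_smul, Nat.add_sub_cancel' hD] at h1

/-- rescaling a point of the cone -/
theorem exists_scale (𝒜 : ℕ × (Fin r → ℤ) → Submodule ℂ R) [GradedAlgebra 𝒜] (p : R →ₐ[ℂ] ℂ)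
    (c : ℂ) : ∃ p' : R →ₐ[ℂ] ℂ, ∀ d m, ∀ h ∈ 𝒜 (d, m), p' h = c ^ d * p h := by
  obtain ⟨p', hp'⟩ := exists_algHom 𝒜 (fun dm => c ^ dm.1 • p.toLinearMap) (by simp) (by
    rintro ⟨d, m⟩ ⟨d', m'⟩ x - x' -
    simp only [Prod.mk_add_mk, LinearMap.smul_apply, AlgHom.toLinearMap_apply, map_mul, smul_eq_mul,
      pow_add]
    ring)
  exact ⟨p', fun d m h hh => by
    rw [hp' (d, m) h hh, LinearMap.smul_apply, AlgHom.toLinearMap_apply, smul_eq_mul]⟩

/-- **Openness at a fixed point without positive multiples of `a`.** -/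
theorem exists_open (hX : IsTorusManifold 𝒜) {a : Fin r → ℤ} (ha0 : a ≠ 0) (z : FP 𝒜)
    (hiso : ¬ z.Pi 0) (hno : ∀ j : ℕ, 1 ≤ j → ¬ z.Pi (j • a)) {f : R} (hf : f ∈ 𝒜 (1, z.ν))
    (hf1 : z.q f = 1) {i : ℕ} {h : R} (hh : h ∈ 𝒜 (1, z.ν + i • a)) (hq : z.q h = 0) :
    ∃ D, ∃ T ∈ 𝒜 (D, D • z.ν), z.q T = 1 ∧ ∀ p : R →ₐ[ℂ] ℂ,
      (∀ w, (∀ i : ℤ, w ≠ i • a) → ∀ d, ∀ x ∈ 𝒜 (d, d • z.ν + w), p x = 0) →
      p f ≠ 0 → p T ≠ 0 → p h = 0 := by
  classical
  have := noeth hX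
  have hF := fix_of_isFixed z.fix
  obtain ⟨n, u, wt, G, hn, hu0⟩ := exists_gens_euler hX z hiso hf hf1
  set ℬ := coarse 𝒜 (rl (AddMonoidHom.id (Fin r → ℤ)) z.ν) with hℬ
  set J : Set (Fin n) := {k | ¬ ∃ j : ℕ, 1 ≤ j ∧ wt k = -(j • a)} with hJ
  set C : Set (Fin r → ℤ) := {w | w = 0 ∨ ∀ i : ℕ, w ≠ -(i • a)} with hC
  have hCC : ∀ w ∈ C, ∀ k ∉ J, w - wt k ∈ C ∧ w - wt k ≠ 0 := by
    intro w hw k hk
    obtain ⟨j, hj, hkj⟩ : ∃ j : ℕ, 1 ≤ j ∧ wt k = -(j • a) := by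
      by_contra h
      exact hk h
    rw [hkj]
    rcases hw with rfl | hw
    · have key : ∀ k : ℕ, 0 - -(j • a) ≠ -(k • a) := by
        intro k hk
        have h1 : (j : ℤ) • a = (-(k : ℤ)) • a := by
          rw [neg_smul, natCast_zsmul, natCast_zsmul, ← hk, zero_sub, neg_neg]
        have h2 := smul_inj ha0 h1
        omega
      exact ⟨Or.inr key, fun h => key 0 (by rw [h, zero_smul, neg_zero])⟩
    · refine ⟨Or.inr fun k hk => hw (k + j) ?_, fun h => hw j ?_⟩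
      · rw [add_smul, neg_add, ← hk]
        abel
      · rw [← sub_eq_zero]; exact h
  have hhB : h ∈ ℬ (i • a) := by
    refine mem_coarse hh ?_
    rw [rl_apply, AddMonoidHom.id_apply, one_smul]
    abel
  have hiC : i • a ∈ C := by
    rcases Nat.eq_zero_or_pos i with h0 | h0
    · exact Or.inl (by rw [h0, zero_smul])
    · refine Or.inr fun k hk => ?_
      have h1 : (i : ℤ) • a = (-(k : ℤ)) • a := by
        rw [neg_smul, natCast_zsmul, natCast_zsmul, ← hk]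
      have h2 := smul_inj ha0 h1
      omega
  obtain ⟨t, ht, hth⟩ := lemmaA hF G (C := C) hCC hiC hhB (mem_mx.mpr hq)
  -- homogeneous denominators and coefficients
  set U : Fin n → R := fun k => if k ∈ J then u k else 0 with hU
  have hUhom : ∀ k, U k ∈ ℬ (wt k) := by
    intro k
    by_cases hk : k ∈ J
    · simp only [hU, hk, if_true]; exact G.hom k
    · simp only [hU, hk, if_false]; exact Submodule.zero_mem _
  have hth' : t * h ∈ Ideal.span (Set.range U) := by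
    refine Ideal.span_mono ?_ hth
    rintro _ ⟨k, hk, rfl⟩
    exact ⟨k, if_pos hk⟩
  have h2 := cp_mem_span hUhom hth' (i • a)
  rw [cp_mul_right ℬ hhB, sub_self] at h2
  set t0 := cp ℬ 0 t with ht0
  have ht0B : t0 ∈ ℬ 0 := cp_mem ℬ 0 t
  have ht01 : z.q t0 = 1 := by rw [ht0, hF.q_cp, ht]
  have h3 : t0 * h ∈ ℬ (i • a) := by
    have := SetLike.mul_mem_graded ht0B hhB
    rwa [zero_add] at this
  obtain ⟨c, hc, hce⟩ := mem_span_hom hUhom h2 h3
  obtain ⟨D, hD⟩ := exists_homog hf ht0B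
  obtain ⟨T, hT, hTe⟩ := hD D le_rfl
  refine ⟨D, T, hT, by rw [hTe z.q hf1, ht01], fun p hp hpf hpT => ?_⟩
  obtain ⟨p', hp'⟩ := exists_scale 𝒜 p (p f)⁻¹
  have hp'f : p' f = 1 := by
    rw [hp' _ _ f hf, pow_one, inv_mul_cancel₀ hpf]
  have hp'T : p' T ≠ 0 := by
    rw [hp' _ _ T hT]
    exact mul_ne_zero (pow_ne_zero _ (inv_ne_zero hpf)) hpT
  have hp'0 : ∀ w, (∀ i : ℤ, w ≠ i • a) → ∀ x ∈ ℬ w, p' x = 0 := by
    intro w hw x hx
    refine coarse_induction (P := fun x => p' x = 0) (map_zero _) (fun a b ha hb => by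
      rw [map_add, ha, hb, add_zero]) ?_ hx
    rintro ⟨d, m⟩ hi x hx
    rw [rl_apply, AddMonoidHom.id_apply] at hi
    have : m = d • z.ν + w := by rw [← hi]; abel
    subst this
    rw [hp' _ _ x hx, hp w hw d x hx, mul_zero]
  have h4 : p' (t0 * h) = 0 := by
    rw [hce, map_sum]
    refine Finset.sum_eq_zero fun k _ => ?_
    rw [map_mul]
    have h5 : p' (U k) = 0 := by
      by_cases hk : k ∈ J
      · simp only [hU, hk, if_true]
        by_cases hk0 : wt k = 0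
        · rw [hu0 k hk0, map_sub, hp'f, map_one, sub_self]
        · refine hp'0 (wt k) (fun i hi => ?_) _ (G.hom k)
          rcases lt_trichotomy i 0 with h6 | h6 | h6
          · refine hk ⟨i.natAbs, by omega, ?_⟩
            rw [hi, ← natCast_zsmul, ← neg_smul]
            congr 1
            omega
          · rw [h6, zero_smul] at hi
            exact hk0 hi
          · refine hno i.natAbs (by omega) ?_
            have h7 : (i.natAbs) • a = wt k := by
              rw [hi, ← natCast_zsmul]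
              congr 1
              omega
            rw [h7]
            exact tangentWeight_of_wt hX z.fix G hn hk0
      · simp only [hU, hk, if_false, map_zero]
    rw [h5, mul_zero]
  have h5 : p' t0 = p' T := (hTe p' hp'f).symm
  rw [map_mul, h5] at h4
  have h6 : p' h = 0 := (mul_eq_zero.1 h4).resolve_left hp'T
  rw [hp' _ _ h hh, pow_one] at h6
  exact (mul_eq_zero.1 h6).resolve_left (inv_ne_zero hpf)

section irr

variable {y : FP 𝒜} {a : Fin r → ℤ} {n : ℕ} {u : Fin n → R} {wt : Fin n → Fin r → ℤ}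

/-- **The cell is irreducible.** -/
theorem irr (hX : IsTorusManifold 𝒜) (ha0 : a ≠ 0)
    (G : Gens (coarse 𝒜 (rl (AddMonoidHom.id (Fin r → ℤ)) y.ν)) y.q u wt)
    (hn : (n : ℕ∞) = (mx y.q).height) {p p' : R →ₐ[ℂ] ℂ} (hp : Cell 𝒜 y a p)
    (hp' : Cell 𝒜 y a p') {w w' : Fin r → ℤ} {x x' : R}
    (hx : x ∈ coarse 𝒜 (rl (AddMonoidHom.id (Fin r → ℤ)) y.ν) w)
    (hx' : x' ∈ coarse 𝒜 (rl (AddMonoidHom.id (Fin r → ℤ)) y.ν) w') (hpx : p x ≠ 0)
    (hpx' : p' x' ≠ 0) : ∃ p'' : R →ₐ[ℂ] ℂ, Cell 𝒜 y a p'' ∧ p'' (x * x') ≠ 0 := by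
  classical
  have := noeth hX
  have hft := hX.finiteType
  have hF := fix_of_isFixed y.fix
  set ℬ := coarse 𝒜 (rl (AddMonoidHom.id (Fin r → ℤ)) y.ν) with hℬ
  set S : Set R := {x | ∃ w, (∀ i : ℕ, w ≠ i • a) ∧ x ∈ ℬ w} ∪ {x | x ∈ ℬ 0 ∧ y.q x = 0} with hS
  set J : Set (Fin n) := {i | ¬ ∃ j : ℕ, 1 ≤ j ∧ wt i = j • a} with hJ
  set C : Set (Fin r → ℤ) := {w | w = 0 ∨ ∀ i : ℕ, w ≠ i • a} with hC
  have hCC : ∀ w ∈ C, ∀ i ∉ J, w - wt i ∈ C ∧ w - wt i ≠ 0 := by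
    intro w hw i hi
    obtain ⟨j, hj, hij⟩ : ∃ j : ℕ, 1 ≤ j ∧ wt i = j • a := by
      by_contra h
      exact hi h
    rw [hij]
    rcases hw with rfl | hw
    · have key : ∀ k : ℕ, 0 - j • a ≠ k • a := by
        intro k hk
        have h1 : (-(j : ℤ)) • a = (k : ℤ) • a := by
          rw [natCast_zsmul, ← hk, neg_smul, natCast_zsmul, zero_sub]
        have h2 := smul_inj ha0 h1
        omega
      exact ⟨Or.inr key, fun h => key 0 (by rw [h, zero_smul])⟩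
    · refine ⟨Or.inr fun k hk => hw (k + j) ?_, fun h => hw j ?_⟩
      · rw [add_smul, ← hk, sub_add_cancel]
      · rw [← sub_eq_zero]; exact h
  have hsub : ∀ x ∈ Ideal.span S, ∃ t, y.q t = 1 ∧ t * x ∈ Ideal.span (u '' J) := by
    intro x hx
    refine Submodule.span_induction (p := fun x _ => ∃ t, y.q t = 1 ∧
      t * x ∈ Ideal.span (u '' J)) ?_ ?_ ?_ ?_ hx
    · rintro x (⟨w, hw, hxw⟩ | ⟨hx0, hx1⟩)
      · have hw0 : w ≠ 0 := by
          intro h
          exact hw 0 (by rw [h, zero_smul])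
        exact lemmaA hF G (C := C) hCC (Or.inr hw) hxw (mem_mx.mpr (hF w hw0 x hxw))
      · exact lemmaA hF G (C := C) hCC (Or.inl rfl) hx0 (mem_mx.mpr hx1)
    · exact ⟨1, map_one _, by rw [mul_zero]; exact Ideal.zero_mem _⟩
    · rintro x x' - - ⟨t, ht, h⟩ ⟨t', ht', h'⟩
      refine ⟨t * t', by rw [map_mul, ht, ht', mul_one], ?_⟩
      rw [mul_add]
      refine Ideal.add_mem _ ?_ ?_
      · rw [mul_comm t t', mul_assoc]; exact Ideal.mul_mem_left _ _ h
      · rw [mul_assoc]; exact Ideal.mul_mem_left _ _ h'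
    · rintro b x - ⟨t, ht, h⟩
      refine ⟨t, ht, ?_⟩
      rw [smul_eq_mul, mul_left_comm]
      exact Ideal.mul_mem_left _ _ h
  -- local membership kills on the cell
  set U : Fin n → R := fun k => if k ∈ J then u k else 0 with hU
  have hUhom : ∀ k, U k ∈ ℬ (wt k) := by
    intro k
    by_cases hk : k ∈ J
    · simp only [hU, hk, if_true]; exact G.hom k
    · simp only [hU, hk, if_false]; exact Submodule.zero_mem _
  have kill : ∀ (p : R →ₐ[ℂ] ℂ), Cell 𝒜 y a p → ∀ (w : Fin r → ℤ), ∀ x ∈ ℬ w,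
      (∃ t, y.q t = 1 ∧ t * x ∈ Ideal.span (u '' J)) → p x = 0 := by
    rintro p hp w x hx ⟨t, ht, htx⟩
    have htx' : t * x ∈ Ideal.span (Set.range U) := by
      refine Ideal.span_mono ?_ htx
      rintro _ ⟨k, hk, rfl⟩
      exact ⟨k, if_pos hk⟩
    have h2 := cp_mem_span hUhom htx' w
    rw [cp_mul_right ℬ hx, sub_self] at h2
    have h3 : p (cp ℬ 0 t) = 1 := by
      rw [hp.zero _ (cp_mem ℬ 0 t), hF.q_cp, ht]
    have h4 : Ideal.span (Set.range U) ≤ RingHom.ker p := by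
      rw [Ideal.span_le]
      rintro _ ⟨k, rfl⟩
      rw [SetLike.mem_coe, RingHom.mem_ker]
      by_cases hk : k ∈ J
      · simp only [hU, hk, if_true]
        by_cases hk0 : wt k = 0
        · rw [hp.zero _ (hk0 ▸ G.hom k)]
          exact G.zero k
        · refine hp.out (wt k) (fun i hi => ?_) _ (G.hom k)
          refine hk ⟨i, ?_, hi⟩
          by_contra h0
          have : i = 0 := by omega
          rw [this, zero_smul] at hi
          exact hk0 hi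
      · simp only [hU, hk, if_false, map_zero]
    have h5 := RingHom.mem_ker.mp (h4 h2)
    rw [map_mul, h3, one_mul] at h5
    exact h5
  by_contra hcon
  push Not at hcon
  have hrad : x * x' ∈ (Ideal.span S).radical := by
    by_contra h0
    obtain ⟨p'', h1, h2⟩ := exists_point h0
    refine h2 (hcon p'' ⟨fun w hw x hx => h1 x (Ideal.subset_span (Or.inl ⟨w, hw, hx⟩)),
      fun x hx => ?_⟩)
    have h3 : x - algebraMap ℂ R (y.q x) ∈ ℬ 0 :=
      Submodule.sub_mem _ hx (SetLike.algebraMap_mem_graded ℬ (y.q x))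
    have h4 := h1 _ (Ideal.subset_span (Or.inr ⟨h3, by rw [map_sub, AlgHom.commutes]; simp⟩))
    rw [map_sub, AlgHom.commutes] at h4
    simpa [sub_eq_zero] using h4
  obtain ⟨k, hk⟩ := hrad
  have hk' := hsub _ hk
  have key : ∀ k : ℕ, (∃ t, y.q t = 1 ∧ t * (x * x') ^ k ∈ Ideal.span (u '' J)) →
      ∃ t, y.q t = 1 ∧ t * (x * x') ∈ Ideal.span (u '' J) := by
    intro k
    induction k with
    | zero =>
      rintro ⟨t, ht, h⟩
      rw [pow_zero] at h
      exact ⟨t, ht, by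
        have := Ideal.mul_mem_right (x * x') _ h
        rwa [mul_one] at this⟩
    | succ k ih =>
      intro h
      rw [pow_succ] at h
      rcases prime_span hX y G hn J h with h1 | h1
      · exact ih h1
      · exact h1
  rcases prime_span hX y G hn J (key k hk') with h1 | h1
  · exact hpx (kill p hp w x hx h1)
  · exact hpx' (kill p' hp' w' x' hx' h1)

/-- Two points of the cell: the contradiction. -/
theorem contra (hX : IsTorusManifold 𝒜) (ha0 : a ≠ 0)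
    (G : Gens (coarse 𝒜 (rl (AddMonoidHom.id (Fin r → ℤ)) y.ν)) y.q u wt)
    (hn : (n : ℕ∞) = (mx y.q).height) {p p' : R →ₐ[ℂ] ℂ} (hp : Cell 𝒜 y a p)
    (hp' : Cell 𝒜 y a p') {z : FP 𝒜} {N : ℕ} (hν : z.ν = y.ν + N • a)
    (hzp : ∀ d, ∀ h ∈ 𝒜 (d, d • z.ν), z.q h = p h) (hiso : ¬ z.Pi 0)
    (hno : ∀ j : ℕ, 1 ≤ j → ¬ z.Pi (j • a)) {i : ℕ} {h : R} (hh : h ∈ 𝒜 (1, z.ν + i • a))
    (hq : z.q h = 0) (hp'h : p' h ≠ 0) : False := by
  obtain ⟨f0, hf0, hf00⟩ := exists_deg_one_ne hX.gen z.nv z.fix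
  obtain ⟨f, hf, hf1⟩ : ∃ f ∈ 𝒜 (1, z.ν), z.q f = 1 :=
    ⟨(z.q f0)⁻¹ • f0, Submodule.smul_mem _ _ hf0, by
      rw [map_smul, smul_eq_mul, inv_mul_cancel₀ hf00]⟩
  obtain ⟨D, T, hT, hT1, hopen⟩ := exists_open hX ha0 z hiso hno hf hf1 hh hq
  have hfT : f * T ∈ 𝒜 (1 + D, (1 + D) • z.ν) := by
    have h1 := SetLike.mul_mem_graded hf hT
    rwa [Prod.mk_add_mk, ← one_smul ℕ z.ν, smul_smul, mul_one, ← add_smul] at h1
  have hpfT : p (f * T) ≠ 0 := by
    rw [← hzp _ _ hfT, map_mul, hf1, hT1, mul_one]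
    exact one_ne_zero
  have hfT' : f * T ∈ coarse 𝒜 (rl (AddMonoidHom.id (Fin r → ℤ)) y.ν) ((1 + D) • (N • a)) := by
    refine mem_coarse hfT ?_
    rw [rl_apply, AddMonoidHom.id_apply, hν, smul_add]
    abel
  have hh' : h ∈ coarse 𝒜 (rl (AddMonoidHom.id (Fin r → ℤ)) y.ν) (N • a + i • a) := by
    refine mem_coarse hh ?_
    rw [rl_apply, AddMonoidHom.id_apply, hν, one_smul]
    abel
  obtain ⟨p'', hp'', hne⟩ := irr hX ha0 G hn hp hp' hfT' hh' hpfT hp'h
  rw [map_mul, map_mul] at hne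
  have h1 := right_ne_zero_of_mul hne
  have h2 := left_ne_zero_of_mul hne
  refine h1 (hopen p'' ?_ (left_ne_zero_of_mul h2) (right_ne_zero_of_mul h2))
  intro w hw d x hx
  refine hp''.out (d • (N • a) + w) (fun i hi => ?_) x (mem_coarse hx ?_)
  · refine hw ((i : ℤ) - ((d * N : ℕ) : ℤ)) ?_
    rw [sub_smul, natCast_zsmul, natCast_zsmul, ← hi, smul_smul]
    abel
  · rw [rl_apply, AddMonoidHom.id_apply, hν, smul_add]
    abel

/-- **LEMMA Z.** -/
theorem lemmaZ (hX : IsTorusManifold 𝒜) (hiso : ∀ z : FP 𝒜, ¬ z.Pi 0) (y : FP 𝒜)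
    {a : Fin r → ℤ} (ha0 : a ≠ 0) {n : ℕ} {u : Fin n → R} {wt : Fin n → Fin r → ℤ}
    (G : Gens (coarse 𝒜 (rl (AddMonoidHom.id (Fin r → ℤ)) y.ν)) y.q u wt)
    (hn : (n : ℕ∞) = (mx y.q).height) {i1 i2 : Fin n} (h12 : i1 ≠ i2)
    (h1 : ∃ j : ℕ, 1 ≤ j ∧ wt i1 = j • a) (h2 : ∃ j : ℕ, 1 ≤ j ∧ wt i2 = j • a) :
    ∃ (z : FP 𝒜) (j j' : ℕ), 1 ≤ j ∧ 1 ≤ j' ∧ z.Pi (j • a) ∧ z.Pi (-(j' • a)) := by
  obtain ⟨p1, hp1a, hp1b, -, hp1c⟩ := exists_pt2 hX y ha0 G hn h12 h1 h2 (map_zero y.q)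
  have hP1 : Cell 𝒜 y a p1 := ⟨hp1a, hp1b⟩
  obtain ⟨z1, N1, hN1, hν1, hz1, j1, hj1, hpi1⟩ := exists_lim hX ha0 hP1 hp1c
  by_contra hcon
  push Not at hcon
  have hno1 : ∀ j : ℕ, 1 ≤ j → ¬ z1.Pi (j • a) := fun j hj h => hcon z1 j j1 hj hj1 h hpi1
  obtain ⟨f1, hf1, hf10⟩ := exists_deg_one_ne hX.gen z1.nv z1.fix
  have hqf1 : y.q f1 = 0 := by
    by_contra h0
    have h3 := y.fix 1 z1.ν f1 hf1 h0
    rw [one_smul, hν1] at h3
    have h4 : N1 • a = 0 • a := by rw [zero_smul]; exact add_eq_left.1 h3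
    have := nsmul_inj' ha0 h4
    omega
  obtain ⟨p2, hp2a, hp2b, hp2f, hp2c⟩ := exists_pt2 hX y ha0 G hn h12 h1 h2 hqf1
  have hP2 : Cell 𝒜 y a p2 := ⟨hp2a, hp2b⟩
  obtain ⟨z2, N2, hN2, hν2, hz2, j2, hj2, hpi2⟩ := exists_lim hX ha0 hP2 hp2c
  have hno2 : ∀ j : ℕ, 1 ≤ j → ¬ z2.Pi (j • a) := fun j hj h => hcon z2 j j2 hj hj2 h hpi2
  obtain ⟨f2, hf2, hf20⟩ := exists_deg_one_ne hX.gen z2.nv z2.fix
  have e1 : p1 f1 = z1.q f1 := (hz1 1 f1 (by rw [one_smul]; exact hf1)).symm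
  have e2 : p2 f2 = z2.q f2 := (hz2 1 f2 (by rw [one_smul]; exact hf2)).symm
  rcases lt_trichotomy N1 N2 with hlt | heq | hgt
  · -- `h = f2` at `z1`
    have hν : z1.ν + (N2 - N1) • a = z2.ν := by
      rw [hν1, hν2, add_assoc, ← add_smul, Nat.add_sub_cancel' hlt.le]
    refine contra hX ha0 G hn hP1 hP2 hν1 hz1 (hiso z1) hno1 (i := N2 - N1) (h := f2)
      (by rw [hν]; exact hf2) ?_ (by rw [e2]; exact hf20)
    by_contra h0
    have h3 := z1.fix 1 z2.ν f2 hf2 h0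
    rw [one_smul, ← hν] at h3
    have h4 : (N2 - N1) • a = 0 • a := by rw [zero_smul]; exact add_eq_left.1 h3
    have := nsmul_inj' ha0 h4
    omega
  · have hν : z2.ν = z1.ν := by rw [hν1, hν2, heq]
    refine contra hX ha0 G hn hP1 hP2 hν1 hz1 (hiso z1) hno1 (i := 0)
      (h := z1.q f1 • f2 - z1.q f2 • f1) ?_ ?_ ?_
    · rw [zero_smul, add_zero]
      exact Submodule.sub_mem _ (Submodule.smul_mem _ _ (hν ▸ hf2)) (Submodule.smul_mem _ _ hf1)
    · rw [map_sub, map_smul, map_smul, smul_eq_mul, smul_eq_mul, mul_comm, sub_self]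
    · rw [map_sub, map_smul, map_smul, hp2f, smul_zero, sub_zero, smul_eq_mul, e2]
      exact mul_ne_zero hf10 hf20
  · -- `h = f1` at `z2`
    have hν : z2.ν + (N1 - N2) • a = z1.ν := by
      rw [hν1, hν2, add_assoc, ← add_smul, Nat.add_sub_cancel' hgt.le]
    refine contra hX ha0 G hn hP2 hP1 hν2 hz2 (hiso z2) hno2 (i := N1 - N2) (h := f1)
      (by rw [hν]; exact hf1) ?_ (by rw [e1]; exact hf10)
    by_contra h0
    have h3 := z2.fix 1 z1.ν f1 hf1 h0
    rw [one_smul, ← hν] at h3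
    have h4 : (N1 - N2) • a = 0 • a := by rw [zero_smul]; exact add_eq_left.1 h3
    have := nsmul_inj' ha0 h4
    omega

end irr

end Vale.Agent.P280.H11
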