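import Vale.Agent.P280.H224.Brk

/-! P280: the limit of the orbit of a field, for all opposite fields at once (after H224). -/

open DirectSum Vale.Agent.P280.T Vale.Agent.P280.H93 Vale.Agent.P280.H224

set_option linter.unusedSectionVars false

namespace Vale.Agent.P280.H11

variable {M : Type} [AddCommGroup M] [DecidableEq M] {R : Type} [CommRing R] [Algebra ℂ R]
variable {𝒜 : ℕ × M → Submodule ℂ R} [GradedAlgebra 𝒜]

/-- If `F` vanishes along the orbit of `E`, the limit of this orbit is a point with tangent weight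
`-a` at which `F` vanishes. -/
theorem exists_limit_all (hX : IsTorusManifold 𝒜) {y : R →ₐ[ℂ] ℂ} (hy0 : ¬ IsVertex 𝒜 y)
    {ν a : M} (hy : IsFixed 𝒜 y ν) {E : Derivation ℂ R R} (hE : IsHField 𝒜 a E)
    {l : M →+ ℤ} (hl : 0 < l a) (hE0 : ∃ h, y (E h) ≠ 0) :
    ∃ (p : R →ₐ[ℂ] ℂ) (μ : M), ¬ IsVertex 𝒜 p ∧ IsFixed 𝒜 p μ ∧ TangentWeight 𝒜 p μ (-a) ∧
      ∀ F : Derivation ℂ R R, IsHField 𝒜 (-a) F →
        (∀ (k : ℕ) (h : R), y ((⇑E)^[k] (F h)) = 0) → ∀ h, p (F h) = 0 := by
  classical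
  let b : M →+ ℂ := (AddMonoidHom.mulLeft (2 / (l a : ℂ))).comp ((Int.castAddHom ℂ).comp l)
  have hb' : ∀ m, b m = 2 / (l a : ℂ) * (l m : ℂ) := fun m => rfl
  have hla : (l a : ℂ) ≠ 0 := by exact_mod_cast hl.ne'
  have hb : b a = 2 := by
    rw [hb']
    field_simp
  obtain ⟨z, hz, hz0⟩ := exists_gen hy hE hb
  have hzy : ∀ (d : ℕ), ∀ h ∈ 𝒜 (d, d • ν), z h = y h := by
    intro d h hh
    rw [hz d _ h hh 0 (by simp), cl_zero]
  -- the largest exponent in degree one
  obtain ⟨K, ⟨m1, f1, hf1, hf1ne⟩, hKmax⟩ : ∃ K : ℕ,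
      (∃ m, ∃ h ∈ 𝒜 (1, m), cl y E K h ≠ 0) ∧
      ∀ k m, ∀ h ∈ 𝒜 (1, m), cl y E k h ≠ 0 → k ≤ K := by
    obtain ⟨B, hB⟩ := re_bdd hX b
    have hbd : ∀ k m, ∀ h ∈ 𝒜 (1, m), cl y E k h ≠ 0 → k ≤ ⌊(B - (b ν).re) / 2⌋₊ := by
      intro k m h hh hne
      apply Nat.le_floor
      have h1 := cl_weight hy hE hh hne
      have h2 := hB 1 m h hh (fun h3 => hne (by rw [h3, map_zero]))
      rw [h1, one_smul, map_add, map_nsmul, hb, nsmul_eq_mul, Complex.add_re, Complex.mul_re,
        Complex.natCast_re, Complex.natCast_im, zero_mul, sub_zero, Nat.cast_one, one_mul] at h2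
      have h3 : ((2 : ℂ)).re = 2 := by simp
      rw [h3] at h2
      linarith
    obtain ⟨f, hf, hfne⟩ := exists_deg_one_ne hX.gen hy0 hy
    let P : ℕ → Prop := fun k => ∃ m, ∃ h ∈ 𝒜 (1, m), cl y E k h ≠ 0
    have hP0 : P 0 := ⟨ν, f, hf, by rwa [cl_zero]⟩
    refine ⟨Nat.findGreatest P ⌊(B - (b ν).re) / 2⌋₊, Nat.findGreatest_spec (P := P) (Nat.zero_le _) hP0,
      fun k m h hh hne => Nat.le_findGreatest (hbd k m h hh hne) ⟨m, h, hh, hne⟩⟩
  have hm1 : m1 = 1 • ν + K • a := cl_weight hy hE hf1 hf1ne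
  have hzf1 : z f1 ≠ 0 := by rwa [hz 1 m1 f1 hf1 K hm1]
  have hK1 : 1 ≤ K := by
    obtain ⟨x, hx⟩ := hE0
    by_contra hcon
    apply hx
    have h1 := tangent_eq_zero hX (isTangent_value y E) (fun m h hh => by
      change y (E h) = 0
      by_contra hne
      have h2 := hKmax 1 m h hh (by
        have h3 := cl_succ y E 0 h
        rw [cl_zero] at h3
        intro h4
        rw [zero_add] at h3
        rw [h4, mul_zero] at h3
        exact hne h3)
      omega)
    exact LinearMap.congr_fun h1 x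
  have hsupp : ∀ (d : ℕ) (m : M), ∀ h ∈ 𝒜 (d, m), z h ≠ 0 →
      ∃ k : ℕ, k ≤ d * K ∧ m = d • ν + k • a := by
    intro d m h hh hne
    obtain ⟨k, hk⟩ := hz0 d m h hh hne
    refine ⟨k, ?_, hk⟩
    have h1 := slope_le hX.gen (-l) (-(l ν + K * l a)) (RingHom.ker z) (fun m h hh hI => by
      have hI' : z h ≠ 0 := fun h0 => hI ((RingHom.mem_ker).2 h0)
      obtain ⟨k, hk⟩ := hz0 1 m h hh hI'
      have h2 := hKmax k m h hh (by rwa [← hz 1 m h hh k hk])
      rw [AddMonoidHom.neg_apply, hk, one_smul, map_add, map_nsmul, nsmul_eq_mul]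
      have h3 : (k : ℤ) * l a ≤ K * l a := mul_le_mul_of_nonneg_right (by exact_mod_cast h2) hl.le
      omega) d m h hh (fun h0 => hne ((RingHom.mem_ker).1 h0))
    rw [AddMonoidHom.neg_apply, hk, map_add, map_nsmul, map_nsmul, nsmul_eq_mul, nsmul_eq_mul,
      nsmul_eq_mul] at h1
    have h2 : (k : ℤ) * l a ≤ (d * K) * l a := by linarith
    have h3 := le_of_mul_le_mul_right h2 hl
    exact_mod_cast h3
  set μ : M := ν + K • a with hμ
  -- the limit point
  let w : ℕ × M →+ ℤ :=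
    { toFun := fun i => i.1 * l μ - l i.2
      map_zero' := by simp
      map_add' := by
        intro i j
        simp only [Prod.fst_add, Prod.snd_add, map_add]
        push_cast
        ring }
  have hw : ∀ d m, w (d, m) = d * l μ - l m := fun d m => rfl
  have hwk : ∀ (d : ℕ) (m : M) (k : ℕ), m = d • ν + k • a → w (d, m) = (d * K - k) * l a := by
    intro d m k hk
    rw [hw, hk, hμ, map_add, map_add, map_nsmul, map_nsmul, map_nsmul, nsmul_eq_mul, nsmul_eq_mul,
      nsmul_eq_mul]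
    ring
  obtain ⟨p, hp1, hp2⟩ := exists_limit 𝒜 z w (by
    rintro ⟨d, m⟩ h hh hne
    obtain ⟨k, hk, hk'⟩ := hsupp d m h hh hne
    rw [hwk d m k hk']
    refine mul_nonneg ?_ hl.le
    have : (k : ℤ) ≤ d * K := by exact_mod_cast hk
    omega)
  have hpk : ∀ (d : ℕ) (m : M) (k : ℕ), m = d • ν + k • a → ∀ h ∈ 𝒜 (d, m),
      p h = if k = d * K then z h else 0 := by
    intro d m k hk h hh
    by_cases h1 : k = d * K
    · rw [if_pos h1]
      apply hp1 (d, m) h hh
      rw [hwk d m k hk, h1]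
      push_cast
      ring
    · rw [if_neg h1]
      apply hp2 (d, m) h hh
      rw [hwk d m k hk]
      refine mul_ne_zero ?_ hl.ne'
      intro h0
      apply h1
      have : (k : ℤ) = d * K := by omega
      exact_mod_cast this
  have hpz : ∀ (d : ℕ) (m : M), ∀ h ∈ 𝒜 (d, m), z h = 0 → p h = 0 := by
    intro d m h hh h0
    by_cases h1 : w (d, m) = 0
    · rw [hp1 _ h hh h1, h0]
    · exact hp2 _ h hh h1
  have hpfix : IsFixed 𝒜 p μ := by
    intro d m h hh hne
    have h1 : z h ≠ 0 := fun h0 => hne (hpz d m h hh h0)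
    obtain ⟨k, -, hk⟩ := hsupp d m h hh h1
    rw [hpk d m k hk h hh] at hne
    have h2 : k = d * K := by
      by_contra h2
      rw [if_neg h2] at hne
      exact hne rfl
    rw [hk, h2, hμ, smul_add, smul_smul]
  have hpf1 : p f1 ≠ 0 := by
    rw [hpk 1 m1 K hm1 f1 hf1, one_mul, if_pos rfl]
    exact hzf1
  have hpv : ¬ IsVertex 𝒜 p := fun hv => hpf1 (hv 1 m1 one_pos f1 hf1)
  -- the tangent vector
  set u : R →ₗ[ℂ] ℂ := H644.tw 𝒜 fun i => if i.2 + a = i.1 • μ then z.toLinearMap else 0 with hu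
  have huk : ∀ (d : ℕ) (m : M) (k : ℕ), m = d • ν + k • a → ∀ h ∈ 𝒜 (d, m),
      u h = if k + 1 = d * K then z h else 0 := by
    intro d m k hk h hh
    have hiff : m + a = d • μ ↔ k + 1 = d * K := by
      rw [hk, hμ, smul_add, smul_smul, add_assoc, ← succ_nsmul]
      constructor
      · intro h1
        exact nsmul_inj hb (add_left_cancel h1)
      · intro h1
        rw [h1]
    rw [hu, H644.tw_mem 𝒜 _ hh]
    by_cases h1 : k + 1 = d * K
    · rw [if_pos h1, if_pos (hiff.2 h1)]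
      rfl
    · rw [if_neg h1, if_neg (fun h2 => h1 (hiff.1 h2))]
      rfl
  have huz : ∀ (d : ℕ) (m : M), ∀ h ∈ 𝒜 (d, m), z h = 0 → u h = 0 := by
    intro d m h hh h0
    rw [hu, H644.tw_mem 𝒜 _ hh]
    split_ifs
    · exact h0
    · rfl
  have hutan : IsTangent p u := by
    have hder : H644.IsDer p u := by
      refine H644.isDer_of_hom (𝒜 := 𝒜) ?_
      rintro ⟨d, m⟩ ⟨d', m'⟩ x hx g hg
      have hxg : x * g ∈ 𝒜 (d + d', m + m') := SetLike.mul_mem_graded hx hg
      by_cases hx0 : z x = 0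
      · rw [huz _ _ _ hxg (by rw [map_mul, hx0, zero_mul]), hpz d m x hx hx0, huz d m x hx hx0]
        ring
      by_cases hg0 : z g = 0
      · rw [huz _ _ _ hxg (by rw [map_mul, hg0, mul_zero]), hpz d' m' g hg hg0,
          huz d' m' g hg hg0]
        ring
      obtain ⟨k, hk, hk'⟩ := hsupp d m x hx hx0
      obtain ⟨k', hk1, hk1'⟩ := hsupp d' m' g hg hg0
      have h1 : m + m' = (d + d') • ν + (k + k') • a := by
        rw [hk', hk1', add_smul, add_smul]
        abel
      rw [huk _ _ _ h1 _ hxg, huk _ _ _ hk' _ hx, huk _ _ _ hk1' _ hg, hpk _ _ _ hk' _ hx,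
        hpk _ _ _ hk1' _ hg, map_mul, add_mul]
      by_cases c1 : k = d * K
      · by_cases c2 : k' + 1 = d' * K
        · rw [if_pos (by omega), if_pos c1, if_pos c2, if_neg (by omega)]
          ring
        · rw [if_neg (by omega), if_neg c2, if_neg (by omega : ¬ (k + 1 = d * K))]
          ring
      · by_cases c2 : k' = d' * K
        · by_cases c3 : k + 1 = d * K
          · rw [if_pos (by omega), if_neg c1, if_pos c2, if_pos c3]
            ring
          · rw [if_neg (by omega), if_neg c1, if_neg c3]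
            ring
        · rw [if_neg (by omega), if_neg c1, if_neg c2]
          ring
    exact hder
  have huw : HasWeight 𝒜 μ (-a) u := by
    intro d m h hh hne
    rw [hu, H644.tw_mem 𝒜 _ hh] at hne
    have h1 : m + a = d • μ := by
      by_contra h1
      rw [if_neg h1] at hne
      exact hne rfl
    rw [← h1]
    abel
  have hune : u (E f1) ≠ 0 := by
    obtain ⟨k, rfl⟩ := Nat.exists_eq_succ_of_ne_zero (by omega : K ≠ 0)
    have hm2 : m1 - a = 1 • ν + k • a := by
      rw [hm1, Nat.succ_eq_add_one, succ_nsmul a k]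
      abel
    rw [huk 1 _ k hm2 _ (hE 1 m1 f1 hf1), if_pos (by omega), hz 1 _ _ (hE 1 m1 f1 hf1) k hm2,
      cl_succ]
    exact mul_ne_zero (Nat.cast_add_one_ne_zero k) hf1ne
  have ha0 : -a ≠ 0 := by
    intro h
    rw [neg_eq_zero] at h
    rw [h, map_zero] at hl
    exact lt_irrefl _ hl
  refine ⟨p, μ, hpv, hpfix, H587.tangentWeight_of_ne hpfix ha0 hutan huw 1 _ (hE 1 m1 f1 hf1)
    hune, fun F hF hF0 h => ?_⟩
  -- `F` vanishes at the limit
  have key : p.toLinearMap.comp F.toLinearMap = 0 := by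
    apply linearMap_ext_graded 𝒜
    rintro ⟨d, m⟩ h hh
    change p (F h) = 0
    by_contra hne
    have hFm := hF d m h hh
    have h1 : z (F h) ≠ 0 := fun h0 => hne (hpz _ _ _ hFm h0)
    obtain ⟨k, -, hk⟩ := hsupp _ _ _ hFm h1
    rw [hz _ _ _ hFm k hk, cl_apply, hF0, mul_zero] at h1
    exact h1 rfl
  exact LinearMap.congr_fun key h

end Vale.Agent.P280.H11
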