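import Vale.Agent.P280.H63X.C01
import Vale.Agent.P280.H224.WTor
import Vale.Agent.P280.H11.LemZ
import Vale.Agent.P280.H11.Limit

/-! P280, Lemma M for top weights, part A: fields of an extremal weight and the source. -/

open DirectSum Vale.Agent.P280.T Vale.Agent.P280.H127 Vale.Agent.P280.N

namespace Vale.Agent.P280.H11

open Vale.Agent.P280.H746

section lin
variable {V : Type*} [AddCommGroup V] [Module ℂ V]

/-- an operator with one eigenvalue is a scalar plus a nilpotent operator -/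
theorem nil_of_eig [FiniteDimensional ℂ V] (x : Module.End ℂ V) (c : ℂ)
    (h : ∀ (μ : ℂ) (v : V), v ≠ 0 → x v = μ • v → μ = c) :
    IsNilpotent (x - c • (1 : Module.End ℂ V)) := by
  classical
  rw [Module.End.isNilpotent_iff_of_finite]
  intro v
  have hv : v ∈ ⨆ μ : ℂ, x.maxGenEigenspace μ := by
    rw [Module.End.iSup_maxGenEigenspace_eq_top]
    trivial
  have key : ∀ n k : ℕ, n ≤ k → ∀ w : V, ((x - c • (1 : Module.End ℂ V)) ^ n) w = 0 →
      ((x - c • (1 : Module.End ℂ V)) ^ k) w = 0 := by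
    intro n k hnk w hw
    obtain ⟨j, rfl⟩ := Nat.exists_eq_add_of_le hnk
    rw [add_comm, pow_add, Module.End.mul_apply, hw, map_zero]
  refine Submodule.iSup_induction (motive := fun v => ∃ n : ℕ,
    ((x - c • (1 : Module.End ℂ V)) ^ n) v = 0) _ hv ?_ ⟨0, by simp⟩ ?_
  · intro μ w hw
    rw [Module.End.mem_maxGenEigenspace] at hw
    by_cases hw0 : w = 0
    · exact ⟨0, by simp [hw0]⟩
    have hμ : μ = c := by
      have h1 := Nat.find_spec hw
      have h2 : Nat.find hw ≠ 0 := by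
        intro h3
        rw [h3] at h1
        exact hw0 (by simpa using h1)
      obtain ⟨j, hj⟩ := Nat.exists_eq_succ_of_ne_zero h2
      have h3 := Nat.find_min hw (m := j) (by omega)
      rw [hj, Nat.succ_eq_add_one, pow_succ', Module.End.mul_apply] at h1
      refine h μ _ h3 ?_
      rw [LinearMap.sub_apply, LinearMap.smul_apply, Module.End.one_apply, sub_eq_zero] at h1
      exact h1
    rw [← hμ]
    exact hw
  · rintro a b ⟨n, hn⟩ ⟨k, hk⟩
    refine ⟨max n k, ?_⟩
    rw [map_add, key n _ (le_max_left _ _) a hn, key k _ (le_max_right _ _) b hk, add_zero]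

end lin

variable {r : ℕ} {R : Type} [CommRing R] [IsDomain R] [Algebra ℂ R]
  {𝒜 : ℕ × (Fin r → ℤ) → Submodule ℂ R} [GradedAlgebra 𝒜]

/-- A fixed point in the lowest component. -/
theorem exists_pos0 (hX : IsTorusManifold 𝒜) (c : (Fin r → ℤ) →+ ℤ) : ∃ y : FP 𝒜, Pos c y := by
  obtain ⟨γ, x, hx0, -, hx1, hx2, ν, hν, -⟩ := exists_lowest hX (H587.lexHom c) (I := ⊥)
    (by
      intro x hx i
      rw [Ideal.mem_bot] at hx
      rw [hx, decompose_zero, DirectSum.zero_apply]
      exact Submodule.zero_mem _)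
    (by
      obtain ⟨z, hz⟩ := hX.nonempty
      refine ⟨z, ?_, hz⟩
      intro x hx
      rw [Ideal.mem_bot] at hx
      rw [hx, map_zero])
  refine ⟨⟨x, ν, hx0, fun d m h hh hne => ?_⟩, low_pos fun d m h hh hne => ?_⟩
  · apply H587.lexHom_injective c
    rw [map_nsmul, hν]
    exact hx1 d m h hh hne
  · have h1 : h ∉ (⊥ : Ideal R).radical := by
      rintro ⟨n, hn⟩
      rw [Ideal.mem_bot] at hn
      exact hne (eq_zero_of_pow_eq_zero hn)
    have h2 := hx2 d m h hh h1
    by_contra hlt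
    push Not at hlt
    have h3 : H587.lexHom c (m - d • ν) < 0 := by
      apply H587.lexHom_neg
      rw [map_sub, map_nsmul]
      linarith
    rw [map_sub, map_nsmul, hν] at h3
    exact absurd h2 (not_le.2 (sub_neg.1 h3))

/-- fields shift the relative weights -/
theorem field_mem {ω : Fin r → ℤ} {D : Derivation ℂ R R} (hD : H93.IsHField 𝒜 ω D)
    {ν w : Fin r → ℤ} {x : R} (hx : x ∈ coarse 𝒜 (rl (AddMonoidHom.id (Fin r → ℤ)) ν) w) :
    D x ∈ coarse 𝒜 (rl (AddMonoidHom.id (Fin r → ℤ)) ν) (w - ω) := by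
  refine coarse_induction (P := fun x => D x ∈ coarse 𝒜
    (rl (AddMonoidHom.id (Fin r → ℤ)) ν) (w - ω)) ?_ ?_ ?_ hx
  · rw [map_zero]
    exact Submodule.zero_mem _
  · intro x z hx hz
    rw [map_add]
    exact Submodule.add_mem _ hx hz
  · rintro ⟨d, m⟩ hdm h hh
    refine mem_coarse (hD d m h hh) ?_
    rw [← hdm, rl_apply, rl_apply, AddMonoidHom.id_apply, AddMonoidHom.id_apply]
    abel

/-- Fields of weights above the tangent weights vanish. -/
theorem field_out (hX : IsTorusManifold 𝒜) {y : FP 𝒜} {l : (Fin r → ℤ) →+ ℤ} {a : ℤ}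
    (ha : 0 ≤ a) (hy : ∀ ω, y.Pi ω → 0 ≤ l ω ∧ l ω ≤ a) {ω : Fin r → ℤ} (hω : a < l ω)
    {D : Derivation ℂ R R} (hD : H93.IsHField 𝒜 ω D) : D = 0 := by
  have := noeth hX
  have hF := fix_of_isFixed y.fix
  obtain ⟨n, u, wt, G, hn⟩ := exists_params_T hX y.nv hF
  have hwt : ∀ i, 0 ≤ l (wt i) ∧ l (wt i) ≤ a := by
    intro i
    by_cases h0 : wt i = 0
    · rw [h0, map_zero]
      exact ⟨le_rfl, ha⟩
    · exact hy _ (tangentWeight_of_wt hX y.fix G hn h0)
  have hkill : ∀ i, D (u i) = 0 := by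
    intro i
    have h1 : coarse 𝒜 (rl (AddMonoidHom.id (Fin r → ℤ)) y.ν) (wt i - ω) = ⊥ := by
      refine source hF G (C := {w | l w < 0}) (by simp) ?_ ?_
      · intro w hw j
        have h2 := (hwt j).1
        simp only [Set.mem_ofPred_eq, map_sub] at hw ⊢
        linarith
      · have h2 := (hwt i).2
        simp only [Set.mem_ofPred_eq, map_sub]
        linarith
    have h2 := field_mem hD (G.hom i)
    rw [h1] at h2
    exact (Submodule.mem_bot ℂ).1 h2
  have h0 := H899.der_eq_zero G D hkill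
  ext x
  exact h0 x

/-- Functions of relative weight zero which vanish at an isolated source vanish. -/
theorem zero_of_src (hX : IsTorusManifold 𝒜) {y : FP 𝒜} (hiso : ¬ y.Pi 0)
    {l : (Fin r → ℤ) →+ ℤ} (hpos : ∀ ω, y.Pi ω → 0 < l ω) {d : ℕ} {h : R}
    (hh : h ∈ 𝒜 (d, d • y.ν)) (hq : y.q h = 0) : h = 0 := by
  classical
  have := noeth hX
  have hft := hX.finiteType
  have hF := fix_of_isFixed y.fix
  obtain ⟨f0, hf0, hf00⟩ := exists_deg_one_ne hX.gen y.nv y.fix
  obtain ⟨f, hf, hf1⟩ : ∃ f ∈ 𝒜 (1, y.ν), y.q f = 1 :=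
    ⟨(y.q f0)⁻¹ • f0, Submodule.smul_mem _ _ hf0, by
      rw [map_smul, smul_eq_mul, inv_mul_cancel₀ hf00]⟩
  obtain ⟨n, u, wt, G, hn, hu0⟩ := exists_gens_euler hX y hiso hf hf1
  set ℬ := coarse 𝒜 (rl (AddMonoidHom.id (Fin r → ℤ)) y.ν) with hℬ
  have hwt : ∀ k, wt k ≠ 0 → 0 < l (wt k) := fun k hk =>
    hpos _ (tangentWeight_of_wt hX y.fix G hn hk)
  set J : Set (Fin n) := {k | wt k = 0} with hJ
  set C : Set (Fin r → ℤ) := {w | w = 0 ∨ l w < 0} with hC
  have hCC : ∀ w ∈ C, ∀ k ∉ J, w - wt k ∈ C ∧ w - wt k ≠ 0 := by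
    intro w hw k hk
    have h1 := hwt k hk
    have h2 : l w ≤ 0 := by
      rcases hw with rfl | hw
      · rw [map_zero]
      · exact hw.le
    have h3 : l (w - wt k) < 0 := by
      rw [map_sub]
      linarith
    exact ⟨Or.inr h3, fun h => by rw [h, map_zero] at h3; exact lt_irrefl _ h3⟩
  have hhB : h ∈ ℬ 0 := by
    refine mem_coarse hh ?_
    rw [rl_apply, AddMonoidHom.id_apply, sub_self]
  obtain ⟨t, ht, hth⟩ := lemmaA hF G (C := C) hCC (Or.inl rfl) hhB (mem_mx.mpr hq)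
  set U : Fin n → R := fun k => if k ∈ J then u k else 0 with hU
  have hUhom : ∀ k, U k ∈ ℬ (wt k) := by
    intro k
    by_cases hk : k ∈ J
    · simp only [hU, hk, if_true]; exact G.hom k
    · simp only [hU, hk, if_false]; exact Submodule.zero_mem _
  have hth' : t * h ∈ Ideal.span (Set.range U) := by
    refine Ideal.span_mono ?_ hth
    rintro _ ⟨k, hk, rfl⟩
    exact ⟨k, if_pos hk⟩
  have h2 := cp_mem_span hUhom hth' 0
  rw [cp_mul_right ℬ hhB, sub_zero] at h2
  set t0 := cp ℬ 0 t with ht0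
  have ht0B : t0 ∈ ℬ 0 := cp_mem ℬ 0 t
  have ht01 : y.q t0 = 1 := by rw [ht0, hF.q_cp, ht]
  obtain ⟨D, hD⟩ := exists_homog hf ht0B
  obtain ⟨T, hT, hTe⟩ := hD D le_rfl
  have hT0 : T ≠ 0 := by
    rintro rfl
    have h3 := hTe y.q hf1
    rw [map_zero, ht01] at h3
    exact one_ne_zero h3.symm
  have hf0' : f ≠ 0 := by
    rintro rfl
    rw [map_zero] at hf1
    exact one_ne_zero hf1.symm
  have hall : ∀ p : R →ₐ[ℂ] ℂ, p (f * (T * h)) = 0 := by
    intro p
    by_cases hpf : p f = 0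
    · rw [map_mul, hpf, zero_mul]
    obtain ⟨p', hp'⟩ := exists_scale 𝒜 p (p f)⁻¹
    have hp'f : p' f = 1 := by
      rw [hp' _ _ f hf, pow_one, inv_mul_cancel₀ hpf]
    have h3 : Ideal.span (Set.range U) ≤ RingHom.ker p' := by
      rw [Ideal.span_le]
      rintro _ ⟨k, rfl⟩
      rw [SetLike.mem_coe, RingHom.mem_ker]
      by_cases hk : k ∈ J
      · simp only [hU, hk, if_true]
        rw [hu0 k hk, map_sub, hp'f, map_one, sub_self]
      · simp only [hU, hk, if_false, map_zero]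
    have h4 := RingHom.mem_ker.mp (h3 h2)
    rw [map_mul, ← hTe p' hp'f, hp' _ _ T hT, hp' _ _ h hh] at h4
    have hc : (p f)⁻¹ ≠ 0 := inv_ne_zero hpf
    rw [map_mul, map_mul]
    rcases mul_eq_zero.1 h4 with h5 | h5
    · rw [(mul_eq_zero.1 h5).resolve_left (pow_ne_zero _ hc), zero_mul, mul_zero]
    · rw [(mul_eq_zero.1 h5).resolve_left (pow_ne_zero _ hc), mul_zero, mul_zero]
  have h0 : f * (T * h) = 0 := by
    by_contra hne
    have h1 : f * (T * h) ∉ (⊥ : Ideal R).radical := by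
      rintro ⟨k, hk⟩
      rw [Ideal.mem_bot] at hk
      exact hne (eq_zero_of_pow_eq_zero hk)
    obtain ⟨p, -, hp⟩ := exists_point h1
    exact hp (hall p)
  exact (mul_eq_zero.1 ((mul_eq_zero.1 h0).resolve_left hf0')).resolve_left hT0

/-- A field of an extremal weight which vanishes at the source is zero. -/
theorem field_zero (hX : IsTorusManifold 𝒜) {y : FP 𝒜} (hiso : ¬ y.Pi 0)
    {l : (Fin r → ℤ) →+ ℤ} {χ : Fin r → ℤ} (hχ : 0 < l χ)
    (hpos : ∀ ω, y.Pi ω → 0 < l ω ∧ l ω ≤ l χ) {D : Derivation ℂ R R}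
    (hD : H93.IsHField 𝒜 χ D) (h0 : ∀ h, y.q (D h) = 0) : D = 0 := by
  have := noeth hX
  have hF := fix_of_isFixed y.fix
  obtain ⟨n, u, wt, G, hn⟩ := exists_params_T hX y.nv hF
  have hwt : ∀ i, wt i ≠ 0 → 0 < l (wt i) ∧ l (wt i) ≤ l χ := fun i hi =>
    hpos _ (tangentWeight_of_wt hX y.fix G hn hi)
  have hkill : ∀ i, D (u i) = 0 := by
    intro i
    by_cases hi : wt i = χ
    · have h1 := G.hom i
      rw [hi] at h1
      refine coarse_induction (P := fun x => D x = 0) (map_zero D)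
        (fun a b ha hb => by rw [map_add, ha, hb, add_zero]) ?_ h1
      rintro ⟨d, m⟩ hdm h hh
      rw [rl_apply, AddMonoidHom.id_apply] at hdm
      have h2 := hD d m h hh
      have h3 : m - χ = d • y.ν := by rw [← hdm]; abel
      rw [h3] at h2
      exact zero_of_src hX hiso (fun ω hω => (hpos ω hω).1) h2 (h0 h)
    · have h1 : coarse 𝒜 (rl (AddMonoidHom.id (Fin r → ℤ)) y.ν) (wt i - χ) = ⊥ := by
        refine source hF G (C := {w | w ≠ 0 ∧ l w ≤ 0}) (by simp) ?_ ?_
        · rintro w ⟨hw0, hw⟩ j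
          by_cases hj : wt j = 0
          · rw [hj, sub_zero]
            exact ⟨hw0, hw⟩
          · have h2 := (hwt j hj).1
            have h3 : l (w - wt j) < 0 := by
              rw [map_sub]
              linarith
            exact ⟨fun h => by rw [h, map_zero] at h3; exact lt_irrefl _ h3, h3.le⟩
        · refine ⟨sub_ne_zero.2 hi, ?_⟩
          rw [map_sub]
          by_cases h0 : wt i = 0
          · rw [h0, map_zero]
            linarith
          · have := (hwt i h0).2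
            linarith
      have h2 := field_mem hD (G.hom i)
      rw [h1] at h2
      exact (Submodule.mem_bot ℂ).1 h2
  have h1 := H899.der_eq_zero G D hkill
  ext x
  exact h1 x

end Vale.Agent.P280.H11
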